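import Vale.Agent.P004C.Wa.ThaH

/-! # P014Y, block F: the functional equation of Hecke in weight one -/

set_option autoImplicit false
set_option linter.all false

open UpperHalfPlane hiding I
open CongruenceSubgroup Complex Filter Set Asymptotics MeasureTheory
open scoped MatrixGroups Real ModularForm

noncomputable section

namespace Vale.Agent.P014Y.Fe

open Vale.Agent.P004C.Wa

namespace Hk

variable {a : ℕ → ℂ} {c : ℝ} {f : ℝ → ℂ}

/-- a series of exponentials -/
def Ex (a : ℕ → ℂ) (c : ℝ) (f : ℝ → ℂ) : Prop :=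
  ∀ t : ℝ, 0 < t → HasSum (fun n : ℕ => a n * Real.exp (-(c * n) * t)) (f t)

theorem Ex.sm (h : Ex a c f) {t : ℝ} (ht : 0 < t) :
    Summable fun n : ℕ => ‖a n‖ * Real.exp (-(c * n) * t) := by
  simpa [norm_exp] using (h t ht).summable.norm

theorem Ex.int (h : Ex a c f) (hc : 0 < c) : LocallyIntegrableOn f (Ioi 0) := by
  refine ContinuousOn.locallyIntegrableOn (fun t ht => ContinuousAt.continuousWithinAt ?_)
    measurableSet_Ioi
  have t2 : 0 < t / 2 := half_pos ht
  have k : ContinuousOn (fun u : ℝ => ∑' n : ℕ, a n * Real.exp (-(c * n) * u)) (Ioi (t / 2)) :=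
    continuousOn_tsum (fun n => by fun_prop) (h.sm t2) fun n u hu => by
      rw [norm_mul, norm_real, Real.norm_of_nonneg (Real.exp_pos _).le]
      have : t / 2 < u := hu
      have : 0 ≤ c * n := by positivity
      exact mul_le_mul_of_nonneg_left (Real.exp_le_exp.2 (by nlinarith)) (norm_nonneg _)
  exact (k.congr fun u hu => (h u (t2.trans hu)).tsum_eq.symm).continuousAt
    (Ioi_mem_nhds (half_lt_self ht))

theorem Ex.sub (h : Ex a c f) : Ex (Function.update a 0 0) c fun t => f t - a 0 := fun t ht => by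
  convert! (h t ht).update 0 0 using 1
  · funext n
    rcases eq_or_ne n 0 with rfl | e
    · simp
    · simp [Function.update_of_ne e]
  · simp
    ring

theorem Ex.top (h : Ex a c f) (hc : 0 < c) (r : ℝ) : (f · - a 0) =O[atTop] (· ^ r) := by
  refine .trans ?_ (isLittleO_exp_neg_mul_rpow_atTop hc r).isBigO
  refine .of_bound (Real.exp c * ∑' n : ℕ, ‖Function.update a 0 0 n‖ * Real.exp (-(c * n) * 1)) ?_
  filter_upwards [eventually_ge_atTop (1 : ℝ)] with t ht
  rw [mul_right_comm, ← tsum_mul_left]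
  refine (h.sub t (one_pos.trans_le ht)).norm_le_of_bounded
    ((h.sub.sm one_pos).mul_left _).hasSum fun n => ?_
  rw [norm_mul, norm_real, Real.norm_of_nonneg (Real.exp_pos _).le,
    Real.norm_of_nonneg (Real.exp_pos _).le, mul_left_comm, ← Real.exp_add, ← Real.exp_add]
  rcases eq_or_ne n 0 with rfl | e
  · simp
  have : (1 : ℝ) ≤ n := Nat.one_le_cast.2 (Nat.pos_of_ne_zero e)
  gcongr
  nlinarith [mul_nonneg hc.le (mul_nonneg (sub_nonneg.2 this) (sub_nonneg.2 ht))]

theorem Ex.zero (h : Ex a c 0) (hc : 0 < c) (n : ℕ) : a n = 0 := by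
  induction n generalizing a with
  | zero =>
    have := (h.top hc (-1)).trans_tendsto (tendsto_rpow_neg_atTop one_pos)
    simpa using this
  | succ n ih =>
    have := (h.top hc (-1)).trans_tendsto (tendsto_rpow_neg_atTop one_pos)
    have z : a 0 = 0 := by simpa using this
    refine ih (a := fun n => a (n + 1)) fun t ht => ?_
    convert! ((hasSum_nat_add_iff' 1).2 (h t ht)).mul_right (Real.exp (c * t) : ℂ) using 1
    · funext n
      rw [mul_assoc, ← ofReal_mul, ← Real.exp_add]
      congr 3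
      push_cast
      ring
    · simp [z]

theorem Ex.mel (h : Ex a c f) (hc : 0 < c) {s : ℂ} (hs : 0 < s.re)
    (k : Summable fun n : ℕ => ‖a n‖ / (n : ℝ) ^ s.re) :
    mellin (f · - a 0) s = (c : ℂ) ^ (-s) * Gamma s * ∑' n : ℕ, a n * (n : ℂ) ^ (-s) := by
  have s0 : s ≠ 0 := fun e => by simp [e] at hs
  rw [← (hasSum_mellin (a := Function.update a 0 0) (p := fun n : ℕ => c * n) (fun n => by
    rcases eq_or_ne n 0 with rfl | e
    · simp
    · exact .inr (mul_pos hc (Nat.cast_pos.2 (Nat.pos_of_ne_zero e)))) hs h.sub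
      ((k.mul_left (c ^ s.re)⁻¹).congr fun n => by
        rcases eq_or_ne n 0 with rfl | e
        · simp [Real.zero_rpow hs.ne']
        · rw [Function.update_of_ne e, Real.mul_rpow hc.le n.cast_nonneg]
          ring)).tsum_eq, ← tsum_mul_left]
  refine tsum_congr fun n => ?_
  rcases eq_or_ne n 0 with rfl | e
  · simp [s0]
  · rw [Function.update_of_ne e, ofReal_mul, mul_cpow_ofReal_nonneg hc.le n.cast_nonneg,
      ofReal_natCast, cpow_neg, cpow_neg]
    ring

theorem ex_qe {G : ℍ → ℂ} {A : ℕ → ℂ} (h : QE G A) (hc : 0 < c) :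
    Ex A (2 * π * c) fun t => G (ofComplex (I * (c * t : ℝ))) := fun t ht => by
  convert h (ofComplex (I * (c * t : ℝ))) using 3 with n
  rw [ofComplex_apply_of_im_pos (by simpa using mul_pos hc ht), ee, ofReal_exp]
  congr 1
  push_cast
  linear_combination (-(2 * π * n * c * t) : ℂ) * I_mul_I

/-- the modular form -/
def mf {N : ℕ} {ε : ℤ → ℂ} {G : ℍ → ℂ} [NeZero N] (e : ∀ a : ℤ, (N : ℤ) ∣ a - 1 → ε a = 1)
    (h : MW N ε G) : ModularForm (Gamma1 N) 1 where
  toFun := G
  slash_action_eq' := by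
    rintro _ ⟨γ, m, rfl⟩
    have m := (Gamma1_mem N γ).1 m
    funext τ
    refine (ModularForm.SL_slash_apply G γ τ).trans ?_
    rw [h.law γ (Gamma0_mem.2 m.2.2), e _ ((ZMod.intCast_zmod_eq_zero_iff_dvd _ _).1
      (by push_cast; rw [m.2.1, sub_self])), one_mul, zpow_neg, zpow_one]
    exact (mul_right_comm _ _ _).trans (by
      rw [show jj γ τ = denom γ τ from rfl, mul_inv_cancel₀ (denom_ne_zero γ τ), one_mul])
  holo' := h.hol
  bdd_at_cusps' hc := by
    rw [Subgroup.IsArithmetic.isCusp_iff_isCusp_SL2Z] at hc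
    rw [OnePoint.isBoundedAt_iff_forall_SL2Z hc]
    exact fun γ _ => h.bdd γ

theorem ee_pow (n : ℕ) (τ : ℂ) : Function.Periodic.qParam 1 τ ^ n = ee (n * τ) := by
  rw [Function.Periodic.qParam, ee, ← exp_nat_mul]
  congr 1
  push_cast
  ring

end Hk

open Hk

variable {N : ℕ} {ε : ℤ → ℂ} {G : ℍ → ℂ} {A B : ℕ → ℂ}

/-- the expansion exists -/
theorem qe_ex (hN : 0 < N) (e : ∀ a : ℤ, (N : ℤ) ∣ a - 1 → ε a = 1) (h : MW N ε G) :
    ∃ A, QE G A := by
  have := NeZero.of_pos hN
  exact ⟨_, fun τ => by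
    simpa only [ee_pow] using! ModularForm.hasSum_qExpansion (mf e h) one_pos (by simp) τ⟩

/-- the expansion is unique -/
theorem qe_uniq (h : QE G A) (h' : QE G B) : A = B := funext fun n =>
  sub_eq_zero.1 (Ex.zero (a := fun n => A n - B n) (c := 2 * π * 1) (fun t ht => by
    simpa only [sub_mul, sub_self] using! (ex_qe h one_pos t ht).sub (ex_qe h' one_pos t ht))
      (by positivity) n)

/-- the recursion -/
theorem hk_rec (e : ε 1 = 1) (h : QE G B) {p : ℕ} (hp : p.Prime) {x : ℂ} (k : Hk ε G p x) (n : ℕ) :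
    B (p * n) + ε p * (if p ∣ n then B (n / p) else 0) = x * B n := by
  refine congrFun (qe_uniq (G := fun τ => x * G τ) (A := fun n => B (p * n) + ε p *
    (if p ∣ n then B (n / p) else 0)) (B := fun n => x * B n) (fun τ => ?_) fun τ => ?_) n
  · have a := (Th.term h one_ne_zero hp.ne_zero τ).add
      ((Th.term h hp.ne_zero one_ne_zero τ).mul_left (ε p))
    have b := k τ
    rw [Nat.sum_divisorsAntidiagonal fun a d => ε a * ∑ b ∈ Finset.range d,
      G (ofComplex ((a * τ + b) / d)) / d, hp.sum_divisors, Nat.div_self hp.pos, Nat.div_one,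
      Nat.cast_one (R := ℤ), e, one_mul, add_comm] at b
    rw [b] at a
    simpa only [one_dvd, if_true, Nat.div_one, one_mul, add_mul, mul_assoc] using a
  · simpa only [mul_assoc] using (h τ).mul_left x

/-- the coefficients away from the level split off -/
theorem split (e : ε 1 = 1) (h : QE G B) (a : Th.Hd (fun n => ε n) A)
    (k : ∀ p : ℕ, p.Prime → p.Coprime N → Hk ε G p (A p)) (m : ℕ) (m0 : m ≠ 0) (c : m.Coprime N)
    (n : ℕ) (d : n.Coprime m) : B (n * m) = B n * A m := by
  induction m using Nat.recOnPosPrimePosCoprime generalizing n with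
  | zero => exact absurd rfl m0
  | one => rw [mul_one, a.one, mul_one]
  | prime_pow p j hp j0 =>
    have r := hk_rec e h hp (k p hp ((Nat.coprime_pow_left_iff j0 _ _).1 c))
    have nd := (hp.coprime_iff_not_dvd).1 ((Nat.coprime_pow_right_iff j0 _ _).1 d).symm
    clear c d j0 m0
    induction j using Nat.twoStepInduction with
    | zero => rw [pow_zero, mul_one, a.one, mul_one]
    | one => simpa [nd, mul_comm] using r n
    | more j i0 i1 =>
      have := r (n * p ^ (j + 1))
      rw [if_pos (Dvd.intro_left (n * p ^ j) (by ring)), i1,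
        show n * p ^ (j + 1) = n * p ^ j * p by ring, Nat.mul_div_cancel _ hp.pos, i0,
        show p * (n * p ^ j * p) = n * p ^ (j + 2) by ring] at this
      rw [a.rc p j hp]
      linear_combination this
  | coprime x y _ _ xy ix iy =>
    rw [Nat.coprime_mul_iff_left] at c
    rw [Nat.coprime_mul_iff_right] at d
    rw [← mul_assoc, iy (right_ne_zero_of_mul m0) c.2 _ (.mul_left d.2 xy),
      ix (left_ne_zero_of_mul m0) c.1 _ d.1, a.mul x y xy, mul_assoc]

/-- the bound of Hecke -/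
theorem qe_le (hN : 0 < N) (e : ∀ a : ℤ, (N : ℤ) ∣ a - 1 → ε a = 1) (h : MW N ε G) (q : QE G A) :
    ∃ C : ℝ, 0 < C ∧ ∀ n, n ≠ 0 → ‖A n‖ ≤ C * n := by
  have := NeZero.of_pos hN
  have k := ModularFormClass.qExpansion_isBigO zero_le_one (mf e h)
  rw [strictWidthInfty_Gamma1, ← funext (ModularFormClass.qExpansion_coeff_unique one_pos (by simp)
    (f := mf e h) (c := A) fun τ => by simpa only [ee_pow, smul_eq_mul] using! q τ)] at k
  obtain ⟨C, C0, b⟩ := bound_of_isBigO_nat_atTop k
  exact ⟨C, C0, fun n n0 => by simpa using b (x := n) (by simpa using n0)⟩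

theorem qe_sum (hN : 0 < N) (e : ∀ a : ℤ, (N : ℤ) ∣ a - 1 → ε a = 1) (h : MW N ε G) (q : QE G A)
    {x : ℝ} (hx : 2 < x) : Summable fun n : ℕ => ‖A n‖ / (n : ℝ) ^ x := by
  obtain ⟨C, -, b⟩ := qe_le hN e h q
  refine .of_nonneg_of_le (fun n => by positivity) (fun n => ?_)
    ((Real.summable_nat_rpow.2 (by linarith : 1 - x < -1)).mul_left C)
  rcases eq_or_ne n 0 with rfl | n0
  · simp [Real.zero_rpow (by linarith : x ≠ 0), Real.zero_rpow (by linarith : 1 - x ≠ 0)]
  have : (0 : ℝ) < n := Nat.cast_pos.2 (Nat.pos_of_ne_zero n0)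
  rw [Real.rpow_sub this, Real.rpow_one, ← mul_div_assoc]
  gcongr
  exact b n n0

/-- **the functional equation** -/
theorem hecke (hN : 0 < N) (hA : QE G A) (hB : QE (fr N G) B) : ∃ F : ℂ → ℂ, Differentiable ℂ F ∧
    (∀ s : ℂ, 1 < s.re → (Summable fun n : ℕ => ‖A n‖ / (n : ℝ) ^ s.re) →
      F s = s * (s - 1) * ((2 * π) ^ (-s) * Gamma s) * ∑' n : ℕ, A n * (n : ℂ) ^ (-s)) ∧
    ∀ s : ℂ, s.re < 0 → (Summable fun n : ℕ => ‖B n‖ / (n : ℝ) ^ (1 - s.re)) →
      F s = s * (s - 1) * ((2 * π) ^ (-(1 - s)) * Gamma (1 - s)) * (I * N ^ (1 - s)) *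
        ∑' n : ℕ, B n * (n : ℂ) ^ (s - 1) := by
  have n0 : (0 : ℝ) < N := Nat.cast_pos.2 hN
  have a := ex_qe hA one_pos
  have b := ex_qe hB (inv_pos.2 n0)
  have ca : 0 < 2 * π * 1 := by positivity
  have cb : 0 < 2 * π * (N : ℝ)⁻¹ := by positivity
  let P : WeakFEPair ℂ := ⟨_, _, 1, I, A 0, B 0, a.int ca, b.int cb, one_pos, I_ne_zero,
    fun x (hx : 0 < x) => by
      have x0 := ofReal_ne_zero.2 hx.ne'
      have n1 : (N : ℂ) ≠ 0 := Nat.cast_ne_zero.2 hN.ne'
      have e : (N : ℂ) * (I * ((N : ℝ)⁻¹ * x : ℝ)) = I * x := by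
        push_cast
        field_simp
      simp only [fr]
      rw [ofComplex_apply_of_im_pos (z := I * ((N : ℝ)⁻¹ * x : ℝ))
        (by simpa using mul_pos (inv_pos.2 n0) hx), coe_mk, e, Real.rpow_one, smul_eq_mul,
        mul_div_cancel₀ _ (mul_ne_zero I_ne_zero x0)]
      congr 2
      push_cast
      field_simp
      simp, a.top ca, b.top cb⟩
  have e : ∀ s : ℂ, s ≠ 0 → s ≠ 1 →
      s * (s - 1) * P.Λ₀ s - (s - 1) * A 0 + s * I * B 0 = s * (s - 1) * P.Λ s := fun s h h' => by
    have := sub_ne_zero.2 h'.symm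
    simp only [WeakFEPair.Λ, P, smul_eq_mul, ofReal_one]
    field_simp
    ring
  refine ⟨fun s => s * (s - 1) * P.Λ₀ s - (s - 1) * A 0 + s * I * B 0,
    by have := P.differentiable_Λ₀; fun_prop, fun s hs k => ?_, fun s hs k => ?_⟩
  · simp only
    rw [e s (fun h => by simp [h] at hs; linarith) (fun h => by simp [h] at hs),
      ← (P.hasMellin hs).2, a.mel ca (one_pos.trans hs) k]
    push_cast
    ring
  · have h1 : 1 < (1 - s).re := by simp only [sub_re, one_re]; linarith
    have f := P.functional_equation (1 - s)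
    rw [show (P.k : ℂ) - (1 - s) = s by simp [P], ← (P.symm.hasMellin h1).2] at f
    simp only
    rw [e s (fun h => by simp [h] at hs) (fun h => by simp [h] at hs; linarith), f]
    simp only [P, WeakFEPair.symm, smul_eq_mul]
    rw [b.mel cb (one_pos.trans h1) (by simpa using k), ofReal_mul,
      mul_cpow_ofReal_nonneg (by positivity) (by positivity), ofReal_inv,
      inv_cpow _ _ (by rw [arg_ofReal_of_nonneg n0.le]; exact Real.pi_pos.ne), cpow_neg (N : ℝ),
      inv_inv, neg_sub 1 s]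
    push_cast
    ring

end Vale.Agent.P014Y.Fe
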