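import Vale.Agent.P014Y.Fe.St
import Vale.Agent.P014Y.Fe.Hk
import Vale.Agent.P014Y.Ln.Frb

/-! # P014 Y, block FE: the rows `MUL` and `GFE` -/

set_option autoImplicit false
set_option linter.all false

open UpperHalfPlane
open scoped Classical Real ComplexConjugate

noncomputable section

namespace Vale.Agent.P014Y.Fe

open P004C.Wa Ln.Fb

namespace Ml

variable {m k : ℕ} {ε : ℤ → ℂ} {G : ℍ → ℂ} {A B : ℕ → ℂ}

theorem dv_iff (m0 : m ≠ 0) : Dv m k ↔ k ∈ Sm m := by
  rw [Nat.mem_factoredNumbers_iff_primeFactors_subset]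
  exact ⟨fun ⟨j, h⟩ => have k0 := ne_zero_of_dvd_ne_zero (pow_ne_zero j m0) h
    ⟨k0, (Nat.exists_dvd_pow_iff k0 m0).1 ⟨j, h⟩⟩, fun h => (Nat.exists_dvd_pow_iff h.1 m0).2 h.2⟩

/-- the conjugates of the eigenvalues -/
theorem cj_eq (m0 : 0 < m) (e : Eg m ε G A B) (k0 : k ≠ 0) (c : k.Coprime m) :
    conj (ε k) * A k = conj (A k) := by
  have a := fun p (hp : p.Prime) c => hk_co e.qe hp (e.hk p c) e.chr.one
  have := mul_of (e := fun p => ε p) (u := fun k => conj (ε k)) (B := fun k => conj (A k))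
    (by simp [e.chr.one]) (fun a b => by simp [e.chr.mul]) a (fun p hp c k => by
      obtain ⟨x, y, hx, hy, s, t⟩ := e.rt p hp c
      have x1 : conj x * x = 1 := by rw [Complex.conj_mul', hx]; simp
      have y1 : conj y * y = 1 := by rw [Complex.conj_mul', hy]; simp
      have := congrArg conj (a p hp c k)
      rw [map_add, map_mul, apply_ite conj, map_mul, map_zero,
        show conj (A p) = conj (ε p) * A p by
          rw [← s, ← t, map_add, map_mul]
          linear_combination -conj y * x1 - conj x * y1] at this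
      rwa [mul_assoc (conj (ε p)), Wd.chr_conj e.chr m0 (Nat.isCoprime_iff_coprime.2 c), mul_one])
    (fun k => by rw [e.one, one_mul]) 1 k k0 c (by simp)
  rw [one_mul, e.one, map_one, one_mul] at this
  exact this.symm

theorem nx {s : ℂ} (h : 2 < s.re) (a : ℂ) (n : ℕ) : ‖a * xs s n‖ = ‖a‖ / (n : ℝ) ^ s.re := by
  rw [norm_mul, xs, Complex.norm_natCast_cpow_of_re_ne_zero _ (by rw [Complex.neg_re]; linarith),
    Complex.neg_re, Real.rpow_neg (Nat.cast_nonneg _), div_eq_mul_inv]

theorem eP_eq (m0 : m ≠ 0) (B X : ℕ → ℂ) : eP m B X = ∑' a : Sm m, B a * X a := by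
  rw [tsum_subtype (Sm m) fun a => B a * X a]
  exact tsum_congr fun k => by simp only [Set.indicator_apply, dv_iff m0]

end Ml

open Ml

theorem mul : MUL := fun m ε G A B m1 e => by
  have m0 := one_pos.trans m1
  have e2 := Wd.chr_sq e.chr
  refine ⟨fun k k' d c => ?_, fun k => ?_, (bd (pow_pos m0 2) (Fi.chr_bar e2)
    (Fi.mw_fr (pow_pos m0 2) e2 e.mw) e.fr).imp fun C h => h.2, fun r h => ?_⟩
  · rw [b_mul m0 e.chr e.mw e.qe e.hk e.fr (cm_ne m1 c) c (sm_cop ((dv_iff m0.ne').1 d) c),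
      cj_eq m0 e (cm_ne m1 c) c]
  · by_cases c : k.Coprime m
    · exact ArithmeticFunction.sigma_zero_apply k ▸ a_le e.chr.one e.qe e.hk e.rt (cm_ne m1 c) c
    · simp [e.dep k c]
  · simpa only [ArithmeticFunction.sigma_zero_apply] using
      b_sum m1 e.chr e.mw e.qe e.hk e.rt e.fr h

theorem gfe : GFE := fun m ε G A B m1 e => by
  have m0 := one_pos.trans m1
  have M0 := pow_pos m0 2
  have e2 := Wd.chr_sq e.chr
  obtain ⟨F, d, h, h'⟩ := hecke M0 e.qe e.fr
  refine ⟨F, d, fun s k => ?_⟩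
  have sA := qe_sum M0 (fun a => Wd.chr_one e2) e.mw e.qe k
  have sB := qe_sum M0 (fun a => Wd.chr_one (Fi.chr_bar e2)) (Fi.mw_fr M0 e2 e.mw) e.fr k
  refine ⟨by rw [h s (by linarith) sA, pow_one]; rfl, ?_⟩
  have q := (Ln.Fb.split m0.ne' (f := fun n => B n * xs s n) (g := fun n => B n * xs s n)
    (h := fun n => conj (A n) * xs s n) (norm_eq_zero.1 (by
      rw [nx k, Nat.cast_zero, Real.zero_rpow (by linarith), div_zero])) (fun a ha b c => by
      simp only [(mul m ε G A B m1 e).1 a b ((dv_iff m0.ne').2 ha) c, xs, Nat.cast_mul,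
        Complex.natCast_mul_natCast_cpow]
      ring) ((sB.congr fun n => (nx k _ n).symm).subtype _)
    ((sA.congr (g := fun n => ‖conj (A n) * xs s n‖) fun n => by
      rw [nx k, RCLike.norm_conj]).subtype _)).tsum_eq
  rw [← eP_eq m0.ne', tsum_subtype_eq_of_support_subset (f := fun n => conj (A n) * xs s n)
    fun n z => by_contra fun c => z (by simp [e.dep n c])] at q
  beta_reduce
  rw [h' (1 - s) (by simp; linarith) (by simpa using sB), sub_sub_cancel, sub_sub_cancel_left,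
    pow_one, one_mul, two_mul s, Complex.cpow_add _ _ (Nat.cast_ne_zero.2 m0.ne'), sq, Nat.cast_mul,
    Complex.natCast_mul_natCast_cpow, show ∑' n : ℕ, B n * (n : ℂ) ^ (-s) = _ from q, gm, LA]
  ring

end Vale.Agent.P014Y.Fe
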