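import Vale.Agent.P014Y.Fe.St
import Vale.Agent.P004C.Al.Eul

/-!
# P014 Y, block FE: depletion of the series of a ray class character
-/

open NumberField Module Filter Topology Ideal
open scoped Classical Real ComplexConjugate

set_option linter.all false

noncomputable section

namespace Vale.Agent.P014Y.Fe

open P004C.Wa (RC Pm dp)

namespace Dep

variable {M : Type} [Field M] [NumberField M] {f : Ideal (𝓞 M)} {ψ a : Ideal (𝓞 M) → ℂ}

theorem psi_pow (r : RC (fun _ => 1) f ψ) (I : Ideal (𝓞 M)) (n : ℕ) : ψ (I ^ n) = ψ I ^ n := by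
  induction n with
  | zero => rw [pow_zero, pow_zero, r.one]
  | succ n ih => rw [pow_succ, pow_succ, r.mul, ih]

/-- finite order -/
theorem psi_ord (r : RC (fun _ => 1) f ψ) {I : Ideal (𝓞 M)} (h0 : ψ I ≠ 0) :
    ∃ k, 0 < k ∧ ψ I ^ k = 1 := by
  have h1 := not_or.1 (mt (r.zero I).2 h0)
  have h3 : ClassGroup.mk0 (⟨I, mem_nonZeroDivisors_of_ne_zero h1.1⟩ ^
      Fintype.card (ClassGroup (𝓞 M))) = 1 := by rw [map_pow, pow_card_eq_one]
  obtain ⟨x, hx⟩ := (ClassGroup.mk0_eq_one_iff _).1 h3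
  have hx' : I ^ Fintype.card (ClassGroup (𝓞 M)) = span {x} := hx
  have h4 : ψ (span {x}) ≠ 0 := by
    rw [← hx', psi_pow r]
    exact pow_ne_zero _ h0
  have h5 := not_or.1 (mt (r.zero _).2 h4)
  obtain ⟨a, ha, b, hb, e⟩ := Submodule.mem_sup.1 ((eq_top_iff_one _).1 (not_not.1 h5.2))
  obtain ⟨z, rfl⟩ := mem_span_singleton'.1 ha
  have := finiteQuotientOfFreeOfNeBot f r.ne
  have hu : IsUnit (Ideal.Quotient.mk f x) := IsUnit.of_mul_eq_one (Ideal.Quotient.mk f z) (by
    rw [← map_mul, ← map_one (Ideal.Quotient.mk f), Ideal.Quotient.eq,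
      show x * z - 1 = -b by linear_combination e]
    exact neg_mem hb)
  obtain ⟨k, k0, hk⟩ := isOfFinOrder_iff_pow_eq_one.1 (isOfFinOrder_of_finite hu.unit)
  have h6 : x ^ k - 1 ∈ f := by
    rw [← Ideal.Quotient.eq, map_pow, map_one]
    simpa using congrArg Units.val hk
  have x0 : x ^ k ≠ 0 := pow_ne_zero _ fun e => h5.1 (by simp [e])
  refine ⟨Fintype.card (ClassGroup (𝓞 M)) * k, by positivity, ?_⟩
  rw [← psi_pow r, pow_mul, hx', span_singleton_pow, r.prn _ x0 h6]

theorem psi_nrm (r : RC (fun _ => 1) f ψ) {I : Ideal (𝓞 M)} (hI : ψ I ≠ 0) : ‖ψ I‖ = 1 := by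
  obtain ⟨k, k0, hk⟩ := psi_ord r hI
  exact (pow_eq_one_iff_of_nonneg (norm_nonneg _) k0.ne').1 (by rw [← norm_pow, hk, norm_one])

theorem psi_le (r : RC (fun _ => 1) f ψ) (I : Ideal (𝓞 M)) : ‖ψ I‖ ≤ 1 := by
  by_cases hI : ψ I = 0
  · simp [hI]
  · exact (psi_nrm r hI).le

omit [NumberField M] in
theorem cj_cj (ψ : Ideal (𝓞 M) → ℂ) : cj (cj ψ) = ψ := funext fun _ => Complex.conj_conj _

omit [NumberField M] in
theorem pc_cj (h : Pc f ψ) : Pc f (cj ψ) := by
  refine ⟨⟨h.rc.ne, by simp only [cj, h.rc.one, map_one], fun I J => by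
    simp only [cj, h.rc.mul, map_mul], fun I => by simp only [cj, map_eq_zero, h.rc.zero],
    fun x h0 h1 => by simp only [cj, h.rc.prn x h0 h1, map_one]⟩, fun P f' hP e => ?_⟩
  obtain ⟨x, h1, h2, h3, h4⟩ := h.pm P f' hP e
  exact ⟨x, h1, h2, h3, fun k => h4 (by simpa [cj] using congrArg conj k)⟩

/-- removing Euler factors -/
theorem sieve (mul : ∀ I J, a (I * J) = a I * a J) (ha : Summable a) (S : Finset (Ideal (𝓞 M)))
    (hS : ∀ P ∈ S, Prime P) : (∑' I, a I) * ∏ P ∈ S, (1 - a P) =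
      ∑' I, if ∀ P ∈ S, ¬P ∣ I then a I else 0 := by
  induction S using Finset.induction_on with
  | empty => simp
  | insert P S hP ih =>
    have p := hS P (Finset.mem_insert_self _ _)
    have q := fun Q hQ => hS Q (Finset.mem_insert_of_mem hQ)
    rw [Finset.prod_insert hP, mul_left_comm, ih q]
    set b : Ideal (𝓞 M) → ℂ := fun I => if ∀ P ∈ S, ¬P ∣ I then a I else 0 with hb
    have sb : Summable b := (ha.indicator {I | ∀ P ∈ S, ¬P ∣ I}).congr fun I => by
      simp only [Set.indicator_apply, Set.mem_ofPred_eq, hb]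
    have h1 : ∀ I, b (P * I) = a P * b I := fun I => by
      have : (∀ Q ∈ S, ¬Q ∣ P * I) ↔ ∀ Q ∈ S, ¬Q ∣ I := forall₂_congr fun Q hQ => by
        rw [(q Q hQ).dvd_mul, not_or, and_iff_right fun k => hP ?_]
        rwa [← associated_iff_eq.1 (((q Q hQ).dvd_prime_iff_associated p).1 k)]
      simp only [hb, this, mul]
      split_ifs <;> simp
    have h2 : ∑' I, (if P ∣ I then b I else 0) = a P * ∑' I, b I := by
      rw [← tsum_mul_left, ← (mul_right_injective₀ p.ne_zero).tsum_eq]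
      · exact tsum_congr fun I => by rw [if_pos (dvd_mul_right _ _), h1]
      · intro I hI
        by_contra k
        exact hI (if_neg fun ⟨c, hc⟩ => k ⟨c, hc.symm⟩)
    have s2 : Summable fun I => if P ∣ I then b I else 0 :=
      (sb.indicator {I | P ∣ I}).congr fun I => by
        simp only [Set.indicator_apply, Set.mem_ofPred_eq]
    rw [sub_mul, one_mul, ← h2, ← sb.tsum_sub s2]
    refine tsum_congr fun I => ?_
    simp only [hb, Finset.forall_mem_insert]
    by_cases k : P ∣ I <;> simp [k]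

theorem xs_mul (s : ℂ) (a b : ℕ) : xs s (a * b) = xs s a * xs s b := by
  rw [xs, xs, xs, Nat.cast_mul, Complex.natCast_mul_natCast_cpow]

theorem norm_xs {s : ℂ} (hs : s.re ≠ 0) (n : ℕ) : ‖xs s n‖ = (n : ℝ) ^ (-s.re) :=
  Complex.norm_natCast_cpow_of_re_ne_zero n (by simpa using hs)

theorem summ (h : ∀ I, ‖a I‖ ≤ 1) {s : ℂ} (hs : 1 < s.re) :
    Summable fun I => a I * xs s (absNorm I) :=
  (P004C.Al.sum_norm M hs).of_norm_bounded fun I => by
    rw [norm_mul, norm_xs (by linarith)]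
    exact mul_le_of_le_one_left (by positivity) (h I)

variable (M) in
theorem fin {m : ℕ} (hm : 0 < m) : {P : Ideal (𝓞 M) | P.IsMaximal ∧ (m : 𝓞 M) ∈ P}.Finite := by
  have h0 : span {(m : 𝓞 M)} ≠ ⊥ := by simpa using hm.ne'
  refine ((Ideal.finite_factors h0).image fun v => v.asIdeal).subset fun P ⟨h1, h2⟩ => ?_
  exact ⟨⟨P, h1.isPrime, fun e => h0 (by simpa [e] using h2)⟩, dvd_span_singleton.2 h2, rfl⟩

theorem ne_bot {m : ℕ} (hm : 0 < m) {P : Ideal (𝓞 M)} (h : (m : 𝓞 M) ∈ P) : P ≠ ⊥ := fun e =>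
  hm.ne' (by simpa [e] using h)

theorem cop_iff {m : ℕ} (I : Ideal (𝓞 M)) : (absNorm I).Coprime m ↔
    ∀ P : Ideal (𝓞 M), P.IsMaximal ∧ (m : 𝓞 M) ∈ P → ¬ P ∣ I := by
  constructor
  · rintro h P ⟨h1, h2⟩ d
    obtain ⟨u, v, e⟩ := Nat.isCoprime_iff_coprime.2 h
    refine h1.ne_top ((eq_top_iff_one _).2 ?_)
    rw [show (1 : 𝓞 M) = u * (absNorm I : ℕ) + v * m by
      exact_mod_cast congrArg (Int.cast : ℤ → 𝓞 M) e.symm]
    exact add_mem (P.mul_mem_left _ (le_of_dvd d (absNorm_mem I))) (P.mul_mem_left _ h2)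
  · intro h
    refine Nat.coprime_of_dvd fun p hp h1 h2 => ?_
    obtain ⟨P, hP, e, d⟩ := exists_isMaximal_dvd_of_dvd_absNorm (Nat.prime_iff_prime_int.1 hp) I
      (Int.natCast_dvd_natCast.2 h1)
    refine h P ⟨hP, ?_⟩ d
    have : (m : ℤ) ∈ P.under ℤ := by
      rw [e]
      exact mem_span_singleton.2 (Int.natCast_dvd_natCast.2 h2)
    simpa using mem_comap.1 this

/-- the Euler factors at `m` -/
theorem li_dp (r : RC (fun _ => 1) f ψ) {m : ℕ} (hm : 0 < m) {s : ℂ} (hs : 1 < s.re) :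
    Li (dp m ψ) s = de m ψ (xs s) * Li ψ s := by
  have h := sieve (a := fun I => ψ I * xs s (absNorm I)) (fun I J => by
    rw [r.mul, map_mul, xs_mul]; ring) (summ (psi_le r) hs) (fin M hm).toFinset fun P hP => by
      obtain ⟨h1, h2⟩ := (fin M hm).mem_toFinset.1 hP
      exact prime_of_isPrime (ne_bot hm h2) h1.isPrime
  rw [de, finprod_mem_eq_finite_toFinset_prod _ (fin M hm), mul_comm, Li, Li, h]
  refine tsum_congr fun I => ?_
  simp only [dp, cop_iff I, Set.Finite.mem_toFinset, Set.mem_ofPred_eq, ite_mul, zero_mul]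

/-- the limit far to the right -/
theorem lim (h : ∀ I, ‖a I‖ ≤ 1) (h1 : a 1 = 1) : Tendsto (fun x : ℝ => Li a x) atTop (𝓝 1) := by
  have e : ∑' I : Ideal (𝓞 M), (if I = 1 then 1 else 0 : ℂ) = 1 := tsum_ite_eq _ _
  rw [← e]
  refine tendsto_tsum_of_dominated_convergence (P004C.Al.sum_norm M one_lt_two) (fun I => ?_) ?_
  · by_cases k : I = 1
    · simp only [k, h1, map_one, xs, Nat.cast_one, Complex.one_cpow, mul_one, if_true]
      exact tendsto_const_nhds
    rw [if_neg k, tendsto_zero_iff_norm_tendsto_zero]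
    have k' : absNorm I ≠ 1 := fun e => k (by simpa using absNorm_eq_one_iff.1 e)
    refine squeeze_zero' (g := fun x : ℝ => (absNorm I : ℝ) ^ (-x))
      (Eventually.of_forall fun _ => norm_nonneg _) ?_ ?_
    · filter_upwards [eventually_gt_atTop 0] with x hx
      rw [norm_mul, norm_xs (by simpa using hx.ne')]
      exact mul_le_of_le_one_left (by positivity) (h I)
    · by_cases z : absNorm I = 0
      · refine tendsto_const_nhds.congr' ?_
        filter_upwards [eventually_gt_atTop 0] with x hx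
        rw [z, Nat.cast_zero, Real.zero_rpow (by linarith)]
      · exact (tendsto_rpow_atBot_of_base_gt_one _ (by
          exact_mod_cast (by omega : 1 < absNorm I))).comp tendsto_neg_atTop_atBot
  · filter_upwards [eventually_ge_atTop 2] with x hx I
    rw [norm_mul, norm_xs (by simp; linarith)]
    refine (mul_le_of_le_one_left (by positivity) (h I)).trans ?_
    by_cases z : absNorm I = 0
    · rw [z, Nat.cast_zero, Real.zero_rpow (by simp; linarith), Real.zero_rpow (by norm_num)]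
    · exact Real.rpow_le_rpow_of_exponent_le (by exact_mod_cast Nat.one_le_iff_ne_zero.2 z)
        (by simpa using hx)

theorem li_ne (h : ∀ I, ‖a I‖ ≤ 1) (h1 : a 1 = 1) : ∀ᶠ x : ℝ in atTop, Li a x ≠ 0 :=
  (lim h h1).eventually_ne one_ne_zero

end Dep

/-- **depletion** -/
theorem dep : DEP := fun M _ _ f ψ h =>
  ⟨Dep.pc_cj h, Dep.psi_le h.rc, fun m hm => ⟨fun s hs => Dep.li_dp h.rc hm hs,
    Dep.li_ne (fun I => by
      unfold dp
      split_ifs
      · exact Dep.psi_le h.rc I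
      · simp) (by rw [dp, map_one, if_pos (Nat.coprime_one_left m), h.rc.one])⟩⟩

end Vale.Agent.P014Y.Fe
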