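import Vale.Agent.P004C.Wa.St

/-!
# P014 Y, block FE: the quotient of the functional equations (words and rows)
-/

open NumberField Module UpperHalfPlane Filter
open scoped Classical Real ComplexConjugate

noncomputable section

namespace Vale.Agent.P014Y.Fe

open P004C.Wa (Chr MW QE Hk fr RC Pm dp)

/-! ### words -/

/-- `k` divides a power of `m` -/
def Dv (m k : ℕ) : Prop := ∃ j, k ∣ m ^ j

/-- multiplicative, small and non zero on the divisors of the powers of `m` -/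
structure Xm (m : ℕ) (r : ℝ) (X : ℕ → ℂ) : Prop where
  one : X 1 = 1
  mul : ∀ a b, Dv m a → Dv m b → X (a * b) = X a * X b
  le : ∀ a, Dv m a → ‖X a‖ ≤ (a : ℝ) ^ (-r)
  ne : ∀ a, Dv m a → X a ≠ 0

/-- `n ^ (-s)` -/
def xs (s : ℂ) (n : ℕ) : ℂ := (n : ℂ) ^ (-s)

/-- the part of a series on the divisors of the powers of `m` -/
def eP (m : ℕ) (B X : ℕ → ℂ) : ℂ := ∑' k, if Dv m k then B k * X k else 0

/-- the Dirichlet series -/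
def LA (A : ℕ → ℂ) (s : ℂ) : ℂ := ∑' k, A k * xs s k

/-- the gamma factor -/
def gm (s : ℂ) : ℂ := (2 * π) ^ (-s) * Complex.Gamma s

/-- a depleted eigenform of weight one, `B` the coefficients of its Fricke transform -/
structure Eg (m : ℕ) (ε : ℤ → ℂ) (G : ℍ → ℂ) (A B : ℕ → ℂ) : Prop where
  chr : Chr m ε
  mw : MW (m ^ 2) ε G
  qe : QE G A
  one : A 1 = 1
  dep : ∀ k, ¬ k.Coprime m → A k = 0
  hk : ∀ k, k.Coprime m → Hk ε G k (A k)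
  rt : ∀ p : ℕ, p.Prime → p.Coprime m → ∃ x y : ℂ, ‖x‖ = 1 ∧ ‖y‖ = 1 ∧ x * y = ε p ∧ x + y = A p
  fr : QE (fr (m ^ 2) G) B

section

variable {M : Type} [Field M] [NumberField M]

/-- primitive ray class character -/
structure Pc (f : Ideal (𝓞 M)) (ψ : Ideal (𝓞 M) → ℂ) : Prop where
  rc : RC (fun _ => 1) f ψ
  pm : Pm (fun _ => 1) f ψ

/-- the conductor -/
def cd (f : Ideal (𝓞 M)) : ℕ := (discr M).natAbs * Ideal.absNorm f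

/-- the conjugate -/
def cj (ψ : Ideal (𝓞 M) → ℂ) (I : Ideal (𝓞 M)) : ℂ := conj (ψ I)

/-- the series of a character -/
def Li (ψ : Ideal (𝓞 M) → ℂ) (s : ℂ) : ℂ := ∑' I, ψ I * xs s (Ideal.absNorm I)

/-- numerators -/
def nu (m : ℕ) (ψ : Ideal (𝓞 M) → ℂ) (X : ℕ → ℂ) : ℂ :=
  ∏ᶠ P ∈ {P : Ideal (𝓞 M) | P.IsMaximal ∧ (m : 𝓞 M) ∈ P},
    (1 - ψ P / (Ideal.absNorm P * X (Ideal.absNorm P)))

/-- denominators -/
def de (m : ℕ) (ψ : Ideal (𝓞 M) → ℂ) (X : ℕ → ℂ) : ℂ :=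
  ∏ᶠ P ∈ {P : Ideal (𝓞 M) | P.IsMaximal ∧ (m : 𝓞 M) ∈ P}, (1 - ψ P * X (Ideal.absNorm P))

end

/-- functional equation with the factor `n / d` -/
def Fq (r : ℕ) (L L' n d : ℂ → ℂ) : Prop := ∃ F : ℂ → ℂ, Differentiable ℂ F ∧ ∀ s : ℂ, 2 < s.re →
  F s = s * (s - 1) * gm s ^ r * L s ∧ d s * F (1 - s) = s * (s - 1) * gm s ^ r * n s * L' s

/-- a Dirichlet series in `X` -/
def Ds (m : ℕ) (r : ℝ) (Φ : (ℕ → ℂ) → ℂ) : Prop := ∃ a : ℕ → ℂ, (∀ k, ¬ Dv m k → a k = 0) ∧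
  (Summable fun k => ‖a k‖ * (k : ℝ) ^ (-r)) ∧ ∀ X, Xm m r X → Φ X = ∑' k, a k * X k

/-! ### rows -/

/-- **functional equation of a primitive character** -/
def PFE : Prop := ∀ (M : Type) [Field M] [NumberField M], IsTotallyComplex M →
  ∀ (f : Ideal (𝓞 M)) ψ, Pc f ψ → ∃ (W : ℂ) (F : ℂ → ℂ), Differentiable ℂ F ∧ ∀ s : ℂ, 1 < s.re →
    F s = s * (s - 1) * gm s ^ (finrank ℚ M / 2) * Li ψ s ∧ F (1 - s) =
      s * (s - 1) * gm s ^ (finrank ℚ M / 2) * (W * (cd f : ℂ) ^ (s - 1 / 2)) * Li (cj ψ) s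

/-- depletion; no zeros far to the right -/
def DEP : Prop := ∀ (M : Type) [Field M] [NumberField M] (f : Ideal (𝓞 M)) ψ, Pc f ψ →
  Pc f (cj ψ) ∧ (∀ I, ‖ψ I‖ ≤ 1) ∧ ∀ m : ℕ, 0 < m →
    (∀ s : ℂ, 1 < s.re → Li (dp m ψ) s = de m ψ (xs s) * Li ψ s) ∧
    ∀ᶠ x : ℝ in atTop, Li (dp m ψ) x ≠ 0

/-- **the depleted series** (from `PFE`, `DEP`) -/
def CFE : Prop := ∀ (M : Type) [Field M] [NumberField M], IsTotallyComplex M →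
  ∀ (f : Ideal (𝓞 M)) ψ, Pc f ψ → ∃ W W' : ℂ, W * W' = 1 ∧ (cj ψ = ψ → W' = W) ∧ ∀ m : ℕ, 0 < m →
    Fq (finrank ℚ M / 2) (Li (dp m ψ)) (Li (dp m (cj ψ)))
      (fun s => W * (cd f : ℂ) ^ (s - 1 / 2) * nu m ψ (xs s)) (fun s => de m (cj ψ) (xs s)) ∧
    Fq (finrank ℚ M / 2) (Li (dp m (cj ψ))) (Li (dp m ψ))
      (fun s => W' * (cd f : ℂ) ^ (s - 1 / 2) * nu m (cj ψ) (xs s)) fun s => de m ψ (xs s)

/-- **the coefficients of the Fricke transform** -/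
def MUL : Prop := ∀ m ε G A B, 1 < m → Eg m ε G A B →
  (∀ k k', Dv m k → k'.Coprime m → B (k * k') = B k * conj (A k')) ∧
  (∀ k, ‖A k‖ ≤ k.divisors.card) ∧ (∃ C : ℝ, ∀ k, 0 < k → ‖B k‖ ≤ C * k) ∧
  ∀ r : ℝ, 1 < r → Summable fun k => ‖B k‖ * k.divisors.card * (k : ℝ) ^ (-r)

/-- **functional equation of the form** (from the theorem of Hecke and `MUL`) -/
def GFE : Prop := ∀ m ε G A B, 1 < m → Eg m ε G A B →
  Fq 1 (LA A) (LA fun k => conj (A k))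
    (fun s => Complex.I * (m : ℂ) ^ (2 * s) * eP m B (xs s)) fun _ => 1

/-- **twisting** -/
def TW : Prop := ∀ (m : ℕ) (r : ℝ), 0 < m → 0 < r →
  (∀ c, Ds m r fun _ => c) ∧ (∀ k, Dv m k → Ds m r fun X => X k) ∧
  (∀ Φ Ψ, Ds m r Φ → Ds m r Ψ → Ds m r (fun X => Φ X + Ψ X) ∧ Ds m r (fun X => Φ X * Ψ X) ∧
    ((∀ᶠ x : ℝ in atTop, Φ (xs x) = Ψ (xs x)) → ∀ X, Xm m r X → Φ X = Ψ X)) ∧
  ∀ B : ℕ → ℂ, (Summable fun k => ‖B k‖ * (k : ℝ) ^ (-r)) → Ds m r (eP m B)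

/-- **the export** -/
def FEQ : Prop := ∀ m ε ε' G G' A B B', 1 < m → Eg m ε G A B →
  Eg m ε' G' (fun k => conj (A k)) B' →
  ∀ (ι : Type) [Fintype ι] (M : ι → Type) [∀ i, Field (M i)] [∀ i, NumberField (M i)]
    (f₀ f₁ : ∀ i, Ideal (𝓞 (M i))) (ψ₀ ψ₁ : ∀ i, Ideal (𝓞 (M i)) → ℂ),
  (∀ i, IsTotallyComplex (M i) ∧ Pc (f₀ i) (ψ₀ i) ∧ Pc (f₁ i) (ψ₁ i) ∧ cj (ψ₀ i) = ψ₀ i ∧
    Dv m (cd (f₀ i)) ∧ Dv m (cd (f₁ i))) → ∑ i, finrank ℚ (M i) = 8 →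
  (∀ s : ℂ, 2 < s.re → (LA A s * LA (fun k => conj (A k)) s) ^ 2 * ∏ i, Li (dp m (ψ₀ i)) s =
    ∏ i, Li (dp m (ψ₁ i)) s * Li (dp m (cj (ψ₁ i))) s) →
  ∃ u : ℂ, u ^ 2 = 1 ∧ ∀ r X, 1 < r → Xm m r X →
    (eP m B X * eP m B' X) ^ 2 * ∏ i, (cd (f₁ i) * X (cd (f₁ i)) ^ 2 * nu m (ψ₀ i) X *
        de m (ψ₁ i) X * de m (cj (ψ₁ i)) X) =
      u * X m ^ 8 * ∏ i, (√(cd (f₀ i)) * X (cd (f₀ i)) * de m (ψ₀ i) X *
        nu m (ψ₁ i) X * nu m (cj (ψ₁ i)) X)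

end Vale.Agent.P014Y.Fe
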