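import Vale.Agent.P014Y.Fe.Dep

/-!
# P014 Y, block FE: the functional equation of the depleted series
-/

open NumberField Module Filter Topology Ideal
open scoped Classical Real ComplexConjugate

set_option linter.all false

noncomputable section

namespace Vale.Agent.P014Y.Fe

open P004C.Wa (RC Pm dp)

namespace Cfe

/-- identity theorem -/
theorem ident {F G : ℂ → ℂ} (hF : Differentiable ℂ F) (hG : Differentiable ℂ G) {c : ℝ}
    (h : ∀ s : ℂ, c < s.re → F s = G s) : F = G :=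
  AnalyticOnNhd.eq_of_eventuallyEq (z₀ := (c + 1 : ℝ)) (fun z _ => hF.analyticAt z)
    (fun z _ => hG.analyticAt z)
    (Filter.eventually_of_mem ((isOpen_lt continuous_const Complex.continuous_re).mem_nhds
      (show c < ((c + 1 : ℝ) : ℂ).re by simp)) h)

theorem gm_ne {s : ℂ} (hs : 0 < s.re) : gm s ≠ 0 :=
  mul_ne_zero (Complex.cpow_ne_zero_iff.2 (Or.inl (mul_ne_zero two_ne_zero
    (Complex.ofReal_ne_zero.2 Real.pi_ne_zero))))
    (Complex.Gamma_ne_zero_of_re_pos hs)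

variable {M : Type} [Field M] [NumberField M] {f : Ideal (𝓞 M)} {ψ : Ideal (𝓞 M) → ℂ}

theorem cd_ne (h : f ≠ ⊥) : (cd f : ℂ) ≠ 0 := Nat.cast_ne_zero.2
  (mul_ne_zero (Int.natAbs_ne_zero.2 (discr_ne_zero M)) (mt absNorm_eq_zero_iff.1 h))

theorem de_diff {m : ℕ} (hm : 0 < m) (ψ : Ideal (𝓞 M) → ℂ) :
    Differentiable ℂ fun s => de m ψ (xs s) := by
  simp only [de, finprod_mem_eq_finite_toFinset_prod _ (Dep.fin M hm)]
  refine Differentiable.fun_finsetProd fun P hP => ?_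
  have h0 : (absNorm P : ℂ) ≠ 0 := Nat.cast_ne_zero.2
    (mt absNorm_eq_zero_iff.1 (Dep.ne_bot hm ((Dep.fin M hm).mem_toFinset.1 hP).2))
  exact (differentiable_const _).sub ((differentiable_const _).mul
    (differentiable_neg.const_cpow (Or.inl h0)))

theorem de_nu {m : ℕ} (hm : 0 < m) (ψ : Ideal (𝓞 M) → ℂ) (s : ℂ) :
    de m ψ (xs (1 - s)) = nu m ψ (xs s) := by
  refine finprod_mem_congr rfl fun P hP => ?_
  have h0 : (absNorm P : ℂ) ≠ 0 := Nat.cast_ne_zero.2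
    (mt absNorm_eq_zero_iff.1 (Dep.ne_bot hm hP.2))
  rw [xs, xs, neg_sub, Complex.cpow_sub _ _ h0, Complex.cpow_one, Complex.cpow_neg, div_mul_eq_div_div,
    div_inv_eq_mul]
  ring

/-- the functional equation of one character -/
def Fe1 (f : Ideal (𝓞 M)) (ψ ψ' : Ideal (𝓞 M) → ℂ) (W : ℂ) (F : ℂ → ℂ) : Prop :=
  Differentiable ℂ F ∧ ∀ s : ℂ, 1 < s.re →
    F s = s * (s - 1) * gm s ^ (finrank ℚ M / 2) * Li ψ s ∧ F (1 - s) =
      s * (s - 1) * gm s ^ (finrank ℚ M / 2) * (W * (cd f : ℂ) ^ (s - 1 / 2)) * Li ψ' s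

theorem fq {ψ' : Ideal (𝓞 M) → ℂ} {W : ℂ} {F : ℂ → ℂ} (r : RC (fun _ => 1) f ψ)
    (r' : RC (fun _ => 1) f ψ') (h : Fe1 f ψ ψ' W F) {m : ℕ} (hm : 0 < m) :
    Fq (finrank ℚ M / 2) (Li (dp m ψ)) (Li (dp m ψ'))
      (fun s => W * (cd f : ℂ) ^ (s - 1 / 2) * nu m ψ (xs s)) fun s => de m ψ' (xs s) := by
  refine ⟨fun s => de m ψ (xs s) * F s, (de_diff hm ψ).mul h.1, fun s hs => ?_⟩
  have hs' : 1 < s.re := by linarith
  obtain ⟨h1, h2⟩ := h.2 s hs'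
  dsimp only
  rw [h1, h2, Dep.li_dp r hm hs', Dep.li_dp r' hm hs', de_nu hm]
  exact ⟨by ring, by ring⟩

theorem refl {ψ' : Ideal (𝓞 M) → ℂ} {W W' : ℂ} {F F' : ℂ → ℂ} (h0 : f ≠ ⊥) (h : Fe1 f ψ ψ' W F)
    (h' : Fe1 f ψ' ψ W' F') (s : ℂ) : F (1 - s) = W * (cd f : ℂ) ^ (s - 1 / 2) * F' s := by
  refine congrFun (ident (F := fun s => F (1 - s))
    (G := fun s => W * (cd f : ℂ) ^ (s - 1 / 2) * F' s) (c := 1)
    (h.1.comp ((differentiable_const _).sub differentiable_id)) (((differentiable_const _).mul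
      ((differentiable_id.sub_const _).const_cpow (Or.inl (cd_ne h0)))).mul h'.1) fun s hs => ?_) s
  rw [(h.2 s hs).2, (h'.2 s hs).1]
  ring

theorem root {ψ' : Ideal (𝓞 M) → ℂ} {W W' : ℂ} {F F' : ℂ → ℂ} (r : RC (fun _ => 1) f ψ)
    (h : Fe1 f ψ ψ' W F) (h' : Fe1 f ψ' ψ W' F') : W * W' = 1 := by
  obtain ⟨x, hx, h1⟩ := ((Dep.li_ne (Dep.psi_le r) r.one).and (eventually_gt_atTop 1)).exists
  have hs : 1 < (x : ℂ).re := h1
  have n : F x ≠ 0 := by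
    rw [(h.2 x hs).1]
    refine mul_ne_zero (mul_ne_zero (mul_ne_zero ?_ ?_) (pow_ne_zero _ (gm_ne (by linarith)))) hx
    · exact_mod_cast (by linarith : x ≠ 0)
    · exact_mod_cast (by linarith : x - 1 ≠ 0)
  have e1 := refl r.ne h h' (1 - x)
  have e2 := refl r.ne h' h x
  have e3 : (cd f : ℂ) ^ (1 - (x : ℂ) - 1 / 2) * (cd f : ℂ) ^ ((x : ℂ) - 1 / 2) = 1 := by
    rw [← Complex.cpow_add _ _ (cd_ne r.ne),
      show 1 - (x : ℂ) - 1 / 2 + ((x : ℂ) - 1 / 2) = 0 by ring, Complex.cpow_zero]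
  rw [sub_sub_cancel, e2] at e1
  refine mul_right_cancel₀ n ?_
  linear_combination -e1 - W * W' * F x * e3

end Cfe

/-- **the depleted series** -/
theorem cfe (p : PFE) : CFE := by
  intro M _ _ hM f ψ h
  have h' := Dep.pc_cj h
  obtain ⟨W, F, hF⟩ := p M hM f ψ h
  have hF : Cfe.Fe1 f ψ (cj ψ) W F := hF
  have : ∃ W' F', Cfe.Fe1 f (cj ψ) ψ W' F' ∧ (cj ψ = ψ → W' = W) := by
    by_cases e : cj ψ = ψ
    · exact ⟨W, F, by simpa only [e] using hF, fun _ => rfl⟩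
    · obtain ⟨W', F', hF'⟩ := p M hM f _ h'
      rw [Dep.cj_cj] at hF'
      exact ⟨W', F', hF', fun k => absurd k e⟩
  obtain ⟨W', F', hF', e⟩ := this
  exact ⟨W, W', Cfe.root h.rc hF hF', e, fun m hm =>
    ⟨Cfe.fq h.rc h'.rc hF hm, Cfe.fq h'.rc h.rc hF' hm⟩⟩

end Vale.Agent.P014Y.Fe
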