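import Vale.Agent.P014Y.Fe.Tate2
import Vale.Agent.P014Y.Fe.St

/-!
P014Y, block F: the functional equation of a primitive ray class character.
-/

namespace Vale.Agent.P014Y.Fe

open NumberField Complex Finset Module
open Vale.Agent.P016Z Vale.Agent.P016Z.TH Vale.Agent.P016Z.Pois
open P004C.Wa (RC Pm)
open scoped Real nonZeroDivisors ComplexConjugate

variable {K : Type} [Field K] [NumberField K] {f : Ideal (𝓞 K)} {ψ : Ideal (𝓞 K) → ℂ}

omit [NumberField K] in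
theorem ex_one {I : Ideal (𝓞 K)} (h0 : I ≠ ⊥) (h : I ⊔ f = ⊤) :
    ∃ z ∈ I, z ≠ 0 ∧ z - 1 ∈ f := by
  obtain ⟨a, ha, b, hb, e⟩ := Submodule.mem_sup.1 (h ▸ Submodule.mem_top : (1 : 𝓞 K) ∈ I ⊔ f)
  by_cases h1 : a = 0
  · obtain ⟨z, hz, h2⟩ := I.ne_bot_iff.1 h0
    rw [h1, zero_add] at e
    exact ⟨z, hz, h2, by simpa [e] using f.mul_mem_left (z - 1) hb⟩
  · exact ⟨a, ha, h1, by rw [← e]; simpa using hb⟩

theorem idl_ne {A : FI K} {x : K} (hx : x ∈ (A : FractionalIdeal (𝓞 K)⁰ K)) (h : x ≠ 0) :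
    idl A x ≠ ⊥ := ne_bot_of h (idl_spec hx)

theorem ray (hf : f ≠ ⊥) {A : FI K} {x b : K} (hx : x ∈ (A : FractionalIdeal (𝓞 K)⁰ K))
    (hb : b ∈ ((fi f * A : FI K) : FractionalIdeal (𝓞 K)⁰ K)) (h0 : x ≠ 0) (h1 : x + b ≠ 0)
    (h : idl A x ⊔ f = ⊤) : ∃ y z : 𝓞 K, y ≠ 0 ∧ z ≠ 0 ∧ y - 1 ∈ f ∧ z - 1 ∈ f ∧
      y ∈ idl A (x + b) ∧ Ideal.span {y} * idl A x = Ideal.span {z} * idl A (x + b) := by
  have inv : ∀ {w : K}, w ∈ (A : FractionalIdeal (𝓞 K)⁰ K) →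
      (idl A w : FractionalIdeal (𝓞 K)⁰ K) = sp w * (A⁻¹ : FI K) := fun hw => by
    rw [idl_spec hw, mul_assoc, A.mul_inv, mul_one]
  have hx' := add_mem' hx (fi_le f A hb)
  obtain ⟨z, hz, z0, z1⟩ := ex_one (idl_ne hx h0) h
  have h2 := FractionalIdeal.mem_coeIdeal_of_mem (P := K) (𝓞 K)⁰ hz
  rw [inv hx] at h2
  obtain ⟨c, hc, e⟩ := FractionalIdeal.mem_singleton_mul.1 h2
  have h3 : (x + b) * c ∈ (idl A (x + b) : FractionalIdeal (𝓞 K)⁰ K) := by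
    rw [inv hx']
    exact FractionalIdeal.mem_singleton_mul.2 ⟨c, hc, rfl⟩
  obtain ⟨y, hy, e'⟩ := (FractionalIdeal.mem_coeIdeal _).1 h3
  have h4 : b * c ∈ (f : FractionalIdeal (𝓞 K)⁰ K) := by
    have := FractionalIdeal.mul_mem_mul hb hc
    rwa [Units.val_mul, mul_assoc, A.mul_inv, mul_one, fi_coe hf] at this
  obtain ⟨w, hw, e''⟩ := (FractionalIdeal.mem_coeIdeal _).1 h4
  have h5 : y = z + w := by
    apply IsFractionRing.injective (𝓞 K) K
    rw [map_add, e, e', e'', add_mul]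
  have c0 : c ≠ 0 := fun h => z0 (IsFractionRing.injective (𝓞 K) K (by simp [e, h]))
  refine ⟨y, z, fun h => mul_ne_zero h1 c0 (by rw [← e', h, map_zero]), z0, ?_, z1, hy, ?_⟩
  · rw [h5, add_sub_right_comm]
    exact f.add_mem z1 hw
  · rw [← FractionalIdeal.coeIdeal_inj (K := K), FractionalIdeal.coeIdeal_mul,
      FractionalIdeal.coeIdeal_mul, FractionalIdeal.coeIdeal_span_singleton,
      FractionalIdeal.coeIdeal_span_singleton, inv hx, inv hx', ← mul_assoc, ← mul_assoc,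
      FractionalIdeal.spanSingleton_mul_spanSingleton,
      FractionalIdeal.spanSingleton_mul_spanSingleton, e, e']
    congr 2
    ring

omit [NumberField K] in
theorem top_of {I : Ideal (𝓞 K)} {y : 𝓞 K} (hy : y ∈ I) (h : y - 1 ∈ f) : I ⊔ f = ⊤ := by
  rw [Ideal.eq_top_iff_one]
  have := (I ⊔ f).sub_mem (Ideal.mem_sup_left hy) (Ideal.mem_sup_right h)
  simpa using this

/-- a function on the ray classes which vanishes off the ideals prime to `f` is periodic -/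
theorem per_of (hf : f ≠ ⊥) (h0 : ∀ I, I ⊔ f ≠ ⊤ → ψ I = 0)
    (h1 : ∀ (I : Ideal (𝓞 K)) (x : 𝓞 K), x ≠ 0 → x - 1 ∈ f → ψ (Ideal.span {x} * I) = ψ I) :
    Per f ψ := by
  intro A x hx b hb x0 x1
  by_cases h : idl A x ⊔ f = ⊤
  · obtain ⟨y, z, y0, z0, y1, z1, -, e⟩ := ray hf hx hb x0 x1 h
    rw [← h1 _ z z0 z1, ← e, h1 _ y y0 y1]
  · rw [h0 _ h, h0]
    intro h'
    have hb' : -b ∈ ((fi f * A : FI K) : FractionalIdeal (𝓞 K)⁰ K) := by
      simpa using sub_mem' (FractionalIdeal.zero_mem _) hb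
    obtain ⟨y, -, -, -, y1, -, hy, -⟩ := ray hf (add_mem' hx (fi_le f A hb)) hb' x1
      (by simpa using x0) h'
    rw [add_neg_cancel_right] at hy
    exact h (top_of hy y1)

theorem rc_per (h : RC (fun _ => 1) f ψ) : Per f ψ :=
  per_of h.ne (fun I hI => (h.zero I).2 (Or.inr hI)) fun I x x0 x1 => by
    rw [h.mul, h.prn x x0 x1, one_mul]

omit [NumberField K] in
theorem rc_inv (h : RC (fun _ => 1) f ψ) : RC (fun _ => 1) f fun I => (ψ I)⁻¹ :=
  ⟨h.ne, by rw [h.one, inv_one], fun I I' => by rw [h.mul, mul_inv],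
    fun I => by rw [inv_eq_zero, h.zero], fun x x0 x1 => by rw [h.prn x x0 x1, inv_one]⟩

theorem rc_le (h : RC (fun _ => 1) f ψ) (I : Ideal (𝓞 K)) : ‖ψ I‖ ≤ 1 := by
  by_cases hI : I = ⊥
  · rw [(h.zero I).2 (Or.inl hI)]; simp
  obtain ⟨B, hB⟩ := (rc_per h).bdd
  have h1 : ∀ n : ℕ, ψ (I ^ n) = ψ I ^ n := fun n => by
    induction n with
    | zero => rw [pow_zero, pow_zero, h.one]
    | succ n ih => rw [pow_succ, pow_succ, h.mul, ih]
  by_contra! h2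
  obtain ⟨n, hn⟩ := pow_unbounded_of_one_lt B h2
  have := hB (I ^ n) (pow_ne_zero n hI)
  rw [h1, norm_pow] at this
  linarith

theorem rc_conj (h : RC (fun _ => 1) f ψ) (I : Ideal (𝓞 K)) : conj (ψ I) = (ψ I)⁻¹ := by
  by_cases h0 : ψ I = 0
  · simp [h0]
  have h1 := rc_le h I
  have h2 := rc_le (rc_inv h) I
  rw [norm_inv, inv_le_one₀ (norm_pos_iff.2 h0)] at h2
  exact (inv_eq_conj (le_antisymm h1 h2)).symm

theorem Rep.up {A A' : FI K} {T : Finset K} (hf : f ≠ ⊥) (h : Rep A (fi f * A) T)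
    {J : Ideal (𝓞 K)} (hJ : J ⊔ f = ⊤) (hA : (A : FractionalIdeal (𝓞 K)⁰ K) = J * A') :
    Rep A' (fi f * A') T := by
  have le1 : (A : FractionalIdeal (𝓞 K)⁰ K) ≤ A' := by
    rw [hA]
    conv_rhs => rw [← one_mul (A' : FractionalIdeal (𝓞 K)⁰ K)]
    exact mul_le_mul_left FractionalIdeal.coeIdeal_le_one _
  have le2 : ((fi f * A : FI K) : FractionalIdeal (𝓞 K)⁰ K) ≤ (fi f * A' : FI K) := by
    rw [Units.val_mul, Units.val_mul]
    exact mul_le_mul_right le1 _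
  obtain ⟨j, hj, μ, hμ, e⟩ := Submodule.mem_sup.1 (hJ ▸ Submodule.mem_top : (1 : 𝓞 K) ∈ J ⊔ f)
  have dec : ∀ x : K, x = algebraMap (𝓞 K) K j * x + algebraMap (𝓞 K) K μ * x := fun x => by
    rw [← add_mul, ← map_add, e, map_one, one_mul]
  have mj := FractionalIdeal.mem_coeIdeal_of_mem (P := K) (𝓞 K)⁰ hj
  have mμ : ∀ (D : FI K) (x : K), x ∈ (D : FractionalIdeal (𝓞 K)⁰ K) →
      algebraMap (𝓞 K) K μ * x ∈ ((fi f * D : FI K) : FractionalIdeal (𝓞 K)⁰ K) := fun D x hx => by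
    rw [Units.val_mul, fi_coe hf]
    exact FractionalIdeal.mul_mem_mul (FractionalIdeal.mem_coeIdeal_of_mem (𝓞 K)⁰ hμ) hx
  refine ⟨fun t ht => le1 (h.1 t ht), fun x hx => ?_⟩
  obtain ⟨t, ⟨h1, h2⟩, -⟩ := h.2 _ (hA ▸ FractionalIdeal.mul_mem_mul mj hx)
  have h3 : x - t ∈ ((fi f * A' : FI K) : FractionalIdeal (𝓞 K)⁰ K) := by
    have := add_mem' (le2 h2) (mμ A' x hx)
    rwa [sub_add_eq_add_sub, ← dec] at this
  refine ⟨t, ⟨h1, h3⟩, fun t' ⟨h4, h5⟩ => (h.2 t (h.1 t h1)).unique ⟨h4, ?_⟩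
    ⟨h1, by simp [FractionalIdeal.zero_mem]⟩⟩
  have h6 := sub_mem' h5 h3
  rw [sub_sub_sub_cancel_left] at h6
  rw [dec (t - t')]
  refine add_mem' ?_ (mμ A _ (sub_mem' (h.1 t h1) (h.1 t' h4)))
  have := FractionalIdeal.mul_mem_mul mj h6
  rwa [Units.val_mul, mul_left_comm, ← hA, ← Units.val_mul] at this

theorem sp_one {J : Ideal (𝓞 K)} (hJ : J ≠ ⊥) :
    sp (1 : K) = (J : FractionalIdeal (𝓞 K)⁰ K) * dl (fi f * (fi J * dl (fi f))) := by
  have h2 : fi J * dl (fi f * (fi J * dl (fi f))) = 1 := by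
    rw [dl_eq (fi f), mul_comm (dl 1), mul_left_comm (fi f), mul_inv_cancel_left, dl_eq, mul_inv,
      mul_left_comm (dl 1), mul_inv_cancel_left, mul_inv_cancel]
  rw [← fi_coe hJ, ← Units.val_mul, h2, Units.val_one, sp, FractionalIdeal.spanSingleton_one]

/-- multiplicativity of the transform away from the modulus -/
theorem G_mul (hf : f ≠ ⊥) (hξ : Per f ψ) {J J' : Ideal (𝓞 K)} (hJ : J ≠ ⊥) (h0 : J' ≠ ⊥)
    (h1 : J' ⊔ f = ⊤) (hm : ∀ I, ψ (J' * I) = ψ J' * ψ I) : G f ψ J = ψ J' * G f ψ (J * J') := by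
  have h2 : J * J' ≠ ⊥ := mul_ne_zero hJ h0
  have hA : ((fi (J * J') * dl (fi f) : FI K) : FractionalIdeal (𝓞 K)⁰ K) =
      J' * (fi J * dl (fi f) : FI K) := by
    rw [Units.val_mul, Units.val_mul, fi_coe h2, fi_coe hJ, FractionalIdeal.coeIdeal_mul]
    ring
  have h3 := (rp_rep f _).up hf h1 hA
  rw [← G_eq hξ h3 one_ne_zero (sp_one hJ), G, mul_sum]
  refine sum_congr rfl fun t ht => ?_
  obtain ⟨c, hc, h4⟩ := ex_ne (fi f * (fi (J * J') * dl (fi f))) t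
  have h5 := (rp_rep f _).1 t ht
  have h6 : c ∈ ((fi f * (fi J * dl (fi f)) : FI K) : FractionalIdeal (𝓞 K)⁰ K) := by
    rw [Units.val_mul, hA, mul_left_comm, ← fi_coe h0, ← Units.val_mul, ← Units.val_mul] at hc
    exact fi_le J' _ hc
  rw [ph_eq hξ h5 hc h4, ph_eq hξ (h3.1 t ht) h6 h4, mul_one, ← mul_assoc, ← hm]
  congr 2
  refine idl_eq ?_
  rw [idl_spec (add_mem' h5 (fi_le _ _ hc)), hA, FractionalIdeal.coeIdeal_mul]
  ring

/-- the transform of a primitive character vanishes off the ideals prime to the conductor -/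
theorem G_shell (h : Pc f ψ) {J : Ideal (𝓞 K)} (hJ : J ≠ ⊥) (h1 : J ⊔ f ≠ ⊤) : G f ψ J = 0 := by
  have hf := h.rc.ne
  have hξ := rc_per h.rc
  obtain ⟨P, hP, h2⟩ := Ideal.exists_le_maximal _ h1
  obtain ⟨f', e⟩ := Ideal.dvd_iff_le.2 (le_sup_right.trans h2)
  obtain ⟨J', e'⟩ := Ideal.dvd_iff_le.2 (le_sup_left.trans h2)
  obtain ⟨x, x1, xP, x0, hx⟩ := h.pm P f' hP e
  have s0 : Ideal.span {x} ≠ ⊥ := by simpa using x0
  have h3 : Ideal.span {x} ⊔ f = ⊤ := by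
    rw [e, ← Ideal.isCoprime_iff_sup_eq]
    refine IsCoprime.mul_right (Ideal.isCoprime_iff_sup_eq.2 ?_)
      (Ideal.isCoprime_iff_sup_eq.2 (top_of (Ideal.mem_span_singleton_self x) x1))
    by_contra h4
    exact xP (hP.eq_of_le h4 le_sup_right ▸ Ideal.mem_sup_left (Ideal.mem_span_singleton_self x))
  have h5 := G_mul hf hξ hJ s0 h3 (h.rc.mul _)
  have x0' : algebraMap (𝓞 K) K x ≠ 0 := by simpa using x0
  have h6 := G_eq hξ (rp_rep f (fi J * dl (fi f))) x0' (J := J * Ideal.span {x}) (by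
    rw [FractionalIdeal.coeIdeal_mul, mul_right_comm, ← sp_one hJ,
      FractionalIdeal.coeIdeal_span_singleton, FractionalIdeal.spanSingleton_mul_spanSingleton,
      one_mul])
  have h7 : G f ψ (J * Ideal.span {x}) = G f ψ J := by
    rw [← h6, G]
    refine sum_congr rfl fun t ht => ?_
    have h8 := FractionalIdeal.mul_mem_mul
      (FractionalIdeal.mem_coeIdeal_of_mem (P := K) (𝓞 K)⁰ x1) ((rp_rep f _).1 t ht)
    have f0 : f' ≠ ⊥ := fun h => hf (by rw [e, h, Ideal.mul_bot])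
    have J0 : J' ≠ ⊥ := fun h => hJ (by rw [e', h, Ideal.mul_bot])
    have P0 : P ≠ ⊥ := fun h => hf (by rw [e, h, Ideal.bot_mul])
    have fm : ∀ {a b : Ideal (𝓞 K)}, a ≠ ⊥ → b ≠ ⊥ → fi (a * b) = fi a * fi b := fun ha hb => by
      ext1
      rw [Units.val_mul, fi_coe ha, fi_coe hb, fi_coe (mul_ne_zero ha hb),
        FractionalIdeal.coeIdeal_mul]
    have h9 : fi f' * (fi J * dl (fi f)) = fi J' * dl 1 := by
      rw [dl_eq (fi f), e, e', fm P0 f0, fm P0 J0]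
      rw [mul_inv, mul_left_comm (fi f'), mul_left_comm (fi f'), mul_left_comm (fi f'),
        mul_inv_cancel, mul_one, mul_mul_mul_comm, mul_comm (fi P * _), mul_comm (fi P),
        mul_mul_mul_comm, inv_mul_cancel, mul_one]
    rw [← fi_coe f0, ← Units.val_mul, h9] at h8
    have h10 := et_one (fi_le J' _ h8)
    rw [show t * algebraMap (𝓞 K) K x = t + algebraMap (𝓞 K) K (x - 1) * t by
      rw [map_sub, map_one]; ring, et_add, h10, mul_one]
  rw [h7] at h5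
  by_contra h11
  exact hx (mul_right_cancel₀ h11 (h5.symm.trans (one_mul _).symm))

theorem G_prim (h : Pc f ψ) {J : Ideal (𝓞 K)} (hJ : J ≠ ⊥) :
    G f ψ J = G f ψ 1 * conj (ψ J) := by
  by_cases h1 : J ⊔ f = ⊤
  · have h2 : ψ J ≠ 0 := fun h0 => ((h.rc.zero J).1 h0).elim hJ fun h => h h1
    rw [G_mul h.rc.ne (rc_per h.rc) (J := 1) one_ne_zero hJ h1 (h.rc.mul _), one_mul,
      rc_conj h.rc]
    field_simp
  · rw [G_shell h hJ h1, (h.rc.zero J).2 (Or.inr h1), map_zero, mul_zero]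

theorem pfe : PFE := by
  intro M _ _ hM f ψ h
  obtain ⟨F, hF, h1, h2⟩ := tate2 h.rc.ne (rc_per h.rc)
  refine ⟨G f ψ 1 * (Ideal.absNorm f : ℂ) ^ (-(1 / 2) : ℂ), F, hF, fun s hs => ⟨?_, ?_⟩⟩
  · rw [h1 s hs, mul_assoc (s * (s - 1))]
    rfl
  · have h0 : -s ≠ 0 := fun e => by rw [neg_eq_zero.1 e] at hs; simp at hs; linarith
    have h3 : ∑' J, G f ψ J * (Ideal.absNorm J : ℂ) ^ (1 - s - 1) = G f ψ 1 * Li (cj ψ) s := by
      rw [Li, ← tsum_mul_left]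
      refine tsum_congr fun J => ?_
      rw [sub_sub_cancel_left]
      by_cases hJ : J = ⊥
      · simp [hJ, h0, xs]
      · rw [G_prim h hJ, mul_assoc]
        rfl
    have hD := abs_discr_pos (K := M)
    have hN : (0 : ℝ) < Ideal.absNorm f := by rw [← nrm_fi h.rc.ne]; exact nrm_pos _
    have h4 : (cd f : ℂ) = ((|(discr M : ℝ)| * Ideal.absNorm f : ℝ) : ℂ) := by
      rw [cd, ← ofReal_natCast]
      congr 1
      rw [Nat.cast_mul, Nat.cast_natAbs, Int.cast_abs]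
    have h5 : ((|(discr M : ℝ)| : ℝ) : ℂ) ^ (1 / 2 - (1 - s)) *
        (Ideal.absNorm f : ℂ) ^ (-(1 - s)) =
        (Ideal.absNorm f : ℂ) ^ (-(1 / 2) : ℂ) * (cd f : ℂ) ^ (s - 1 / 2) := by
      rw [h4, cpow_pos (mul_pos hD hN), cpow_pos hD, ← ofReal_natCast, cpow_pos hN, cpow_pos hN,
        Real.log_mul hD.ne' hN.ne', ← Complex.exp_add, ← Complex.exp_add]
      congr 1
      push_cast
      ring
    rw [h2 (1 - s) (by simp; linarith), h3, sub_sub_cancel]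
    change _ = s * (s - 1) * gam M s * _ * _
    linear_combination s * (s - 1) * gam M s * G f ψ 1 * Li (cj ψ) s * h5

end Vale.Agent.P014Y.Fe
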