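import Vale.Agent.P014Y.Fe.St

/-!
# P014 Y, block FE: Dirichlet series in a multiplicative variable (row TW)
-/

open Filter
open LSeries (convolution)
open scoped Classical

noncomputable section

namespace Vale.Agent.P014Y.Fe

namespace Tw

variable {m : ℕ} {r : ℝ} {a b X : ℕ → ℂ}

theorem dv_one : Dv m 1 := ⟨0, by simp⟩

theorem dv_mul {x y : ℕ} (h : Dv m x) (k : Dv m y) : Dv m (x * y) := by
  obtain ⟨i, h⟩ := h
  obtain ⟨j, k⟩ := k
  exact ⟨i + j, pow_add m i j ▸ mul_dvd_mul h k⟩

theorem dv_ne (hm : 0 < m) {x : ℕ} (h : Dv m x) : x ≠ 0 := by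
  obtain ⟨i, h⟩ := h
  rintro rfl
  exact (pow_pos hm i).ne' (zero_dvd_iff.1 h)

theorem dv_of {x y : ℕ} (d : x ∣ y) (h : Dv m y) : Dv m x := h.imp fun _ k => d.trans k

theorem xm_xs (hm : 0 < m) {s : ℂ} (h : r ≤ s.re) : Xm m r (xs s) where
  one := by simp [xs]
  mul x y _ _ := by simp only [xs, Nat.cast_mul, Complex.natCast_mul_natCast_cpow]
  le x k := by
    have p := Nat.pos_of_ne_zero (dv_ne hm k)
    rw [xs, Complex.norm_natCast_cpow_of_pos p, Complex.neg_re]
    exact Real.rpow_le_rpow_of_exponent_le (by exact_mod_cast p) (neg_le_neg h)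
  ne x k := by
    rw [xs, Ne, Complex.cpow_eq_zero_iff]
    exact fun z => dv_ne hm k (Nat.cast_eq_zero.1 z.1)

theorem sm (h : ∀ k, ¬ Dv m k → a k = 0) (s : Summable fun k => ‖a k‖ * (k : ℝ) ^ (-r))
    (x : Xm m r X) : Summable fun k => a k * X k := by
  refine .of_norm_bounded s fun k => ?_
  by_cases d : Dv m k
  · rw [norm_mul]
    exact mul_le_mul_of_nonneg_left (x.le k d) (norm_nonneg _)
  · simp [h k d]

theorem t0 (h : a 0 = 0) (s : ℂ) (k : ℕ) : LSeries.term a s k = a k * xs s k := by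
  rcases eq_or_ne k 0 with rfl | e
  · simp [h]
  · rw [LSeries.term_of_ne_zero e, xs, Complex.cpow_neg, div_eq_mul_inv]

theorem t1 (h : a 0 = 0) : LSeries.term a 0 = a := funext fun k => by simp [t0 h, xs]

theorem ls (h : a 0 = 0) :
    LSeriesSummable a r ↔ Summable fun k => ‖a k‖ * (k : ℝ) ^ (-r) := by
  rw [LSeriesSummable, ← summable_norm_iff]
  refine summable_congr fun k => ?_
  rcases eq_or_ne k 0 with rfl | e
  · simp [h]
  · rw [t0 h, norm_mul, xs, Complex.norm_natCast_cpow_of_pos (Nat.pos_of_ne_zero e)]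
    simp

theorem cv (h : ∀ k, ¬ Dv m k → a k = 0) (h' : ∀ k, ¬ Dv m k → b k = 0) (x : Xm m r X) :
    convolution (fun k => a k * X k) (fun k => b k * X k) = fun k => convolution a b k * X k := by
  ext k
  simp only [LSeries.convolution_def, Finset.sum_mul]
  refine Finset.sum_congr rfl fun p hp => ?_
  by_cases d : Dv m p.1
  · by_cases d' : Dv m p.2
    · rw [← (Nat.mem_divisorsAntidiagonal.1 hp).1, x.mul _ _ d d']
      ring
    · simp [h' _ d']
  · simp [h _ d]

theorem one (k : ℕ) (d : Dv m k) (c : ℂ) {Φ : (ℕ → ℂ) → ℂ} (e : ∀ X, Xm m r X → Φ X = c * X k) :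
    Ds m r Φ := by
  refine ⟨fun j => if j = k then c else 0, fun j n => if_neg fun z : j = k => n (z ▸ d),
    summable_of_ne_finset_zero (s := {k}) fun j n => by simp [Finset.notMem_singleton.1 n],
    fun X x => ?_⟩
  rw [e X x, tsum_eq_single k fun j n => by simp [n]]
  simp

end Tw

open Tw in
theorem tw : TW := by
  intro m r hm _
  have z : ∀ {a : ℕ → ℂ}, (∀ k, ¬ Dv m k → a k = 0) → a 0 = 0 := fun h =>
    h 0 fun d => dv_ne hm d rfl
  refine ⟨fun c => one 1 dv_one c fun X x => by rw [x.one, mul_one],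
    fun k d => one k d 1 fun X _ => (one_mul _).symm, ?_, fun B s => ?_⟩
  · rintro Φ Ψ ⟨a, a1, a2, a3⟩ ⟨b, b1, b2, b3⟩
    have la := (ls (z a1)).2 a2
    have lb := (ls (z b1)).2 b2
    refine ⟨⟨a + b, fun k d => by simp [a1 k d, b1 k d], (ls (by simp [z a1, z b1])).1 (la.add lb),
      fun X x => ?_⟩, ⟨convolution a b, fun k d => ?_, (ls (by simp)).1 (la.convolution lb), fun X x => ?_⟩,
      fun e X x => ?_⟩
    · beta_reduce
      rw [a3 X x, b3 X x, ← (sm a1 a2 x).tsum_add (sm b1 b2 x)]
      simp only [Pi.add_apply, add_mul]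
    · rw [LSeries.convolution_def]
      refine Finset.sum_eq_zero fun p hp => ?_
      by_cases d1 : Dv m p.1
      · rw [b1 _ fun d2 => d ((Nat.mem_divisorsAntidiagonal.1 hp).1 ▸ dv_mul d1 d2), mul_zero]
      · rw [a1 _ d1, zero_mul]
    · have p : (fun k => a k * X k) 0 = 0 := by simp [z a1]
      have q : (fun k => b k * X k) 0 = 0 := by simp [z b1]
      have := LSeries_convolution' (f := fun k => a k * X k) (g := fun k => b k * X k) (s := 0)
        (by rw [LSeriesSummable, t1 p]; exact sm a1 a2 x)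
        (by rw [LSeriesSummable, t1 q]; exact sm b1 b2 x)
      rw [cv a1 b1 x, LSeries, LSeries, LSeries, t1 (a := fun k => a k * X k) p,
        t1 (a := fun k => b k * X k) q, t1 (by simp)] at this
      beta_reduce
      rw [a3 X x, b3 X x, this]
    · have k : (fun y : ℝ => LSeries a y) =ᶠ[atTop] fun y => LSeries b y := by
        filter_upwards [e, eventually_ge_atTop r] with y e1 e2
        have x' : Xm m r (xs y) := xm_xs hm (by simpa using e2)
        rw [a3 _ x', b3 _ x'] at e1
        simpa only [LSeries, t0 (z a1), t0 (z b1)] using e1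
      rw [a3 X x, b3 X x]
      refine tsum_congr fun n => ?_
      rcases eq_or_ne n 0 with rfl | n0
      · rw [z a1, z b1]
      · rw [LSeries.eq_of_LSeries_eventually_eq
          (la.abscissaOfAbsConv_le.trans_lt (EReal.coe_lt_top _))
          (lb.abscissaOfAbsConv_le.trans_lt (EReal.coe_lt_top _)) k n0]
  · refine ⟨fun k => if Dv m k then B k else 0, fun k d => if_neg d,
      s.of_nonneg_of_le (fun k => by positivity) fun k => ?_, fun X _ => tsum_congr fun k => ?_⟩
    · beta_reduce
      split_ifs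
      · rfl
      · simp only [norm_zero, zero_mul]
        positivity
    · by_cases d : Dv m k <;> simp [d]

end Vale.Agent.P014Y.Fe
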