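import Vale.Agent.P014Y.Fe.Feq
import Vale.Agent.P014Y.Fe.Cfe
import Vale.Agent.P014Y.Fe.Dep
import Vale.Agent.P014Y.Fe.Mul
import Vale.Agent.P014Y.Fe.Pfe
import Vale.Agent.P014Y.Fe.Tw

/-!
# P014 Y, block FE: the export
-/

namespace Vale.Agent.P014Y.Fe

/-- **the quotient of the functional equations** -/
theorem feq : FEQ := feq0 (cfe pfe) gfe mul tw dep

end Vale.Agent.P014Y.Fe
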