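import Vale.Agent.P014Y.Fe.St

/-!
# P014 Y, block FE: the glue
-/

open NumberField Module UpperHalfPlane Filter Topology
open scoped Classical Real ComplexConjugate

noncomputable section

namespace Vale.Agent.P014Y.Fe

open P004C.Wa (Chr MW QE Hk fr RC Pm dp)

namespace Gl

variable {m : ℕ} {r : ℝ}

theorem dv_one : Dv m 1 := ⟨0, one_dvd _⟩

theorem dv_mul {a b : ℕ} (h : Dv m a) (h' : Dv m b) : Dv m (a * b) := by
  obtain ⟨i, h⟩ := h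
  obtain ⟨j, h'⟩ := h'
  exact ⟨i + j, pow_add m i j ▸ mul_dvd_mul h h'⟩

theorem dv_ne (m0 : 0 < m) {a : ℕ} (h : Dv m a) : a ≠ 0 := by
  obtain ⟨i, h⟩ := h
  exact ne_zero_of_dvd_ne_zero (pow_ne_zero _ m0.ne') h

theorem xm_xs (m0 : 0 < m) {x : ℝ} (h : r ≤ x) : Xm m r (xs x) where
  one := by simp [xs]
  mul a b _ _ := by simp only [xs, Nat.cast_mul, Complex.natCast_mul_natCast_cpow]
  le a ha := by
    have a0 := Nat.pos_of_ne_zero (dv_ne m0 ha)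
    rw [xs, Complex.norm_natCast_cpow_of_pos a0]
    exact Real.rpow_le_rpow_of_exponent_le (by exact_mod_cast a0) (by simpa using h)
  ne a ha := by simp [xs, dv_ne m0 ha]

/-- Dirichlet series up to a monomial -/
def Dr (m : ℕ) (r : ℝ) (Φ : (ℕ → ℂ) → ℂ) : Prop := ∃ k Φ₁, Dv m k ∧ Ds m r Φ₁ ∧
  ∀ X, Xm m r X → X k * Φ X = Φ₁ X

theorem of_ds {Φ : (ℕ → ℂ) → ℂ} (h : Ds m r Φ) : Dr m r Φ :=
  ⟨1, Φ, dv_one, h, fun X hX => by rw [hX.one, one_mul]⟩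

variable (tw : TW) (m0 : 0 < m) (r0 : 0 < r)
include tw m0 r0

theorem dr_c (c : ℂ) : Dr m r fun _ => c := of_ds ((tw m r m0 r0).1 c)

theorem dr_x {k : ℕ} (h : Dv m k) : Dr m r fun X => X k := of_ds ((tw m r m0 r0).2.1 k h)

theorem dr_inv {k : ℕ} (h : Dv m k) : Dr m r fun X => (X k)⁻¹ :=
  ⟨k, _, h, (tw m r m0 r0).1 1, fun _ hX => mul_inv_cancel₀ (hX.ne k h)⟩

theorem dr_mul {Φ Ψ : (ℕ → ℂ) → ℂ} (h : Dr m r Φ) (h' : Dr m r Ψ) :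
    Dr m r fun X => Φ X * Ψ X := by
  obtain ⟨k, Φ₁, a, b, c⟩ := h
  obtain ⟨k', Ψ₁, a', b', c'⟩ := h'
  exact ⟨k * k', _, dv_mul a a', ((tw m r m0 r0).2.2.1 _ _ b b').2.1, fun X hX => by
    rw [hX.mul _ _ a a', ← c X hX, ← c' X hX]; ring⟩

theorem dr_add {Φ Ψ : (ℕ → ℂ) → ℂ} (h : Dr m r Φ) (h' : Dr m r Ψ) :
    Dr m r fun X => Φ X + Ψ X := by
  obtain ⟨k, Φ₁, a, b, c⟩ := h
  obtain ⟨k', Ψ₁, a', b', c'⟩ := h'
  obtain ⟨-, t1, t2, -⟩ := tw m r m0 r0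
  exact ⟨k * k', _, dv_mul a a', (t2 _ _ (t2 _ _ (t1 _ a') b).2.1 (t2 _ _ (t1 _ a) b').2.1).1,
    fun X hX => by rw [hX.mul _ _ a a', ← c X hX, ← c' X hX]; ring⟩

theorem dr_eq {Φ Ψ : (ℕ → ℂ) → ℂ} (h : Dr m r Φ) (h' : Dr m r Ψ)
    (e : ∀ᶠ x : ℝ in atTop, Φ (xs x) = Ψ (xs x)) (X : ℕ → ℂ) (hX : Xm m r X) : Φ X = Ψ X := by
  obtain ⟨k, Φ₁, a, b, c⟩ := h
  obtain ⟨k', Ψ₁, a', b', c'⟩ := h'
  obtain ⟨-, t1, t2, -⟩ := tw m r m0 r0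
  have := (t2 _ _ (t2 _ _ (t1 _ a') b).2.1 (t2 _ _ (t1 _ a) b').2.1).2.2
    ((e.and (eventually_ge_atTop r)).mono fun x hx => by
      rw [← c _ (xm_xs m0 hx.2), ← c' _ (xm_xs m0 hx.2), hx.1]; ring) X hX
  rw [← c X hX, ← c' X hX] at this
  exact mul_left_cancel₀ (mul_ne_zero (hX.ne k a) (hX.ne k' a')) (by linear_combination this)

theorem dr_prod {ι : Type} (S : Finset ι) (Φ : ι → (ℕ → ℂ) → ℂ) (h : ∀ i ∈ S, Dr m r (Φ i)) :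
    Dr m r fun X => ∏ i ∈ S, Φ i X := by
  induction S using Finset.induction_on with
  | empty => simpa using dr_c tw m0 r0 1
  | insert a S ha ih =>
    simp only [Finset.prod_insert ha]
    exact dr_mul tw m0 r0 (h a (by simp)) (ih fun i hi => h i (by simp [hi]))

theorem dr_pow {Φ : (ℕ → ℂ) → ℂ} (h : Dr m r Φ) (n : ℕ) : Dr m r fun X => Φ X ^ n := by
  simpa using dr_prod tw m0 r0 (Finset.range n) (fun _ => Φ) fun _ _ => h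

variable {M : Type} [Field M] [NumberField M]

omit tw r0 in
theorem fin_m : {P : Ideal (𝓞 M) | P.IsMaximal ∧ (m : 𝓞 M) ∈ P}.Finite :=
  (Ideal.finite_factors (I := Ideal.span {(m : 𝓞 M)}) (by simpa using m0.ne')).image
    (·.asIdeal) |>.subset fun P hP => ⟨⟨P, hP.1.isPrime, fun e => m0.ne' (by
      have := hP.2
      rw [e, Ideal.mem_bot] at this
      exact_mod_cast this)⟩, Ideal.dvd_span_singleton.2 hP.2, rfl⟩

omit tw m0 r0 in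
theorem dv_nm {P : Ideal (𝓞 M)} (h : (m : 𝓞 M) ∈ P) : Dv m (Ideal.absNorm P) :=
  ⟨finrank ℤ (𝓞 M), by
    have := Ideal.absNorm_dvd_absNorm_of_le ((Ideal.span_singleton_le_iff_mem _).2 h)
    rwa [Ideal.absNorm_span_natCast] at this⟩

theorem dr_de (ψ : Ideal (𝓞 M) → ℂ) : Dr m r (de m ψ) := by
  have := dr_prod tw m0 r0 (fin_m (M := M) m0).toFinset
    (fun P X => 1 + -ψ P * X (Ideal.absNorm P)) fun P hP => dr_add tw m0 r0 (dr_c tw m0 r0 1)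
      (dr_mul tw m0 r0 (dr_c tw m0 r0 _) (dr_x tw m0 r0 (dv_nm ((fin_m m0).mem_toFinset.1 hP).2)))
  convert this using 2 with X
  rw [de, finprod_mem_eq_finite_toFinset_prod _ (fin_m m0)]
  exact Finset.prod_congr rfl fun _ _ => by ring

theorem dr_nu (ψ : Ideal (𝓞 M) → ℂ) : Dr m r (nu m ψ) := by
  have := dr_prod tw m0 r0 (fin_m (M := M) m0).toFinset
    (fun P X => 1 + -(ψ P / Ideal.absNorm P) * (X (Ideal.absNorm P))⁻¹) fun P hP =>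
      dr_add tw m0 r0 (dr_c tw m0 r0 1) (dr_mul tw m0 r0 (dr_c tw m0 r0 _)
        (dr_inv tw m0 r0 (dv_nm ((fin_m m0).mem_toFinset.1 hP).2)))
  convert this using 2 with X
  rw [nu, finprod_mem_eq_finite_toFinset_prod _ (fin_m m0)]
  exact Finset.prod_congr rfl fun _ _ => by ring

omit tw m0 r0

theorem gm_ne {s : ℂ} (h : 0 < s.re) : gm s ≠ 0 :=
  mul_ne_zero (by simp [Real.pi_ne_zero]) (Complex.Gamma_ne_zero_of_re_pos h)

theorem ident {F G : ℂ → ℂ} (hF : Differentiable ℂ F) (hG : Differentiable ℂ G)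
    (h : ∀ s : ℂ, 2 < s.re → F s = G s) : F = G :=
  AnalyticOnNhd.eq_of_eventuallyEq (z₀ := 3) (hF.differentiableOn.analyticOnNhd isOpen_univ)
    (hG.differentiableOn.analyticOnNhd isOpen_univ)
    (((isOpen_lt continuous_const Complex.continuous_re).eventually_mem
      (show (2 : ℝ) < (3 : ℂ).re by norm_num)).mono h)

/-- the quotient of the functional equations -/
theorem quo {ι : Type} [Fintype ι] {ρ : ι → ℕ} (hρ : ∑ i, ρ i = 4) {L L' n n' : ℂ → ℂ}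
    {L₀ L₁ L₂ n₀ n₁ n₂ d₀ d₁ d₂ : ι → ℂ → ℂ} (h : Fq 1 L L' n fun _ => 1)
    (h' : Fq 1 L' L n' fun _ => 1) (h₀ : ∀ i, Fq (ρ i) (L₀ i) (L₀ i) (n₀ i) (d₀ i))
    (h₁ : ∀ i, Fq (ρ i) (L₁ i) (L₂ i) (n₁ i) (d₂ i)) (h₂ : ∀ i, Fq (ρ i) (L₂ i) (L₁ i) (n₂ i) (d₁ i))
    (e : ∀ s : ℂ, 2 < s.re → (L s * L' s) ^ 2 * ∏ i, L₀ i s = ∏ i, L₁ i s * L₂ i s)
    {s : ℂ} (hs : 2 < s.re) (ne : ∀ i, L₁ i s ≠ 0 ∧ L₂ i s ≠ 0) :
    (n s * n' s) ^ 2 * ∏ i, n₀ i s * d₁ i s * d₂ i s = ∏ i, d₀ i s * n₁ i s * n₂ i s := by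
  obtain ⟨F, dF, h⟩ := h
  obtain ⟨F', dF', h'⟩ := h'
  choose F₀ dF₀ h₀ using h₀
  choose F₁ dF₁ h₁ using h₁
  choose F₂ dF₂ h₂ using h₂
  have g : ∀ s, ∏ i, gm s ^ ρ i = gm s ^ 4 := fun s => by rw [Finset.prod_pow_eq_pow_sum, hρ]
  have dp : Differentiable ℂ fun s : ℂ => s * (s - 1) := by fun_prop
  have k := congrFun (ident (F := fun s => (F s * F' s) ^ 2 * ∏ i, F₀ i s * (s * (s - 1)))
    (G := fun s => (s * (s - 1)) ^ 4 * ∏ i, F₁ i s * F₂ i s)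
    (((dF.mul dF').pow 2).mul (Differentiable.fun_finsetProd fun i _ => (dF₀ i).mul dp))
    ((dp.pow 4).mul (Differentiable.fun_finsetProd fun i _ => (dF₁ i).mul (dF₂ i))) fun s hs => by
      have := e s hs
      simp only [(h s hs).1, (h' s hs).1, (h₀ _ s hs).1, (h₁ _ s hs).1, (h₂ _ s hs).1,
        Finset.prod_mul_distrib, g] at this ⊢
      linear_combination (s * (s - 1)) ^ 4 * gm s ^ 8 * (∏ _i : ι, s) ^ 2 *
        (∏ _i : ι, (s - 1)) ^ 2 * this) (1 - s)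
  have a := (h s hs).2
  have a' := (h' s hs).2
  have a₀ := Finset.prod_congr (s₁ := Finset.univ) rfl fun i _ => (h₀ i s hs).2
  have a₁ := Finset.prod_congr (s₁ := Finset.univ) rfl fun i _ => (h₁ i s hs).2
  have a₂ := Finset.prod_congr (s₁ := Finset.univ) rfl fun i _ => (h₂ i s hs).2
  have b := e s hs
  have p : s * (s - 1) ≠ 0 := mul_ne_zero (fun e => by simp [e] at hs; linarith)
    (sub_ne_zero.2 fun e => by simp [e] at hs)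
  have n1 : ∏ i, L₁ i s ≠ 0 := Finset.prod_ne_zero_iff.2 fun i _ => (ne i).1
  have n2 : ∏ i, L₂ i s ≠ 0 := Finset.prod_ne_zero_iff.2 fun i _ => (ne i).2
  have n3 : ∏ _i : ι, s * (s - 1) ≠ 0 := Finset.prod_ne_zero_iff.2 fun i _ => p
  rw [show (1 - s) * (1 - s - 1) = s * (s - 1) by ring] at k
  generalize s * (s - 1) = q at *
  simp only [Finset.prod_mul_distrib, g, one_mul, pow_one] at k a a' a₀ a₁ a₂ b ⊢
  rw [a, a'] at k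
  refine mul_left_cancel₀ (mul_ne_zero (mul_ne_zero (mul_ne_zero (pow_ne_zero 4 p)
    (pow_ne_zero 8 (gm_ne (s := s) (by linarith)))) (pow_ne_zero 2 n3)) (mul_ne_zero n1 n2)) ?_
  generalize ∏ _i : ι, q = Q at *
  generalize gm s = γ at *
  linear_combination (∏ i, d₀ i s) * (∏ i, d₁ i s) * (∏ i, d₂ i s) * k -
    q ^ 4 * γ ^ 4 * (n s * n' s) ^ 2 * (L s * L' s) ^ 2 * Q * (∏ i, d₁ i s) * (∏ i, d₂ i s) * a₀ +
    q ^ 4 * (∏ i, d₀ i s) * ((∏ i, d₁ i s) * (∏ i, F₂ i (1 - s)) * a₁ +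
      Q * γ ^ 4 * (∏ i, n₁ i s) * (∏ i, L₂ i s) * a₂) -
    q ^ 4 * γ ^ 8 * Q ^ 2 * (n s * n' s) ^ 2 * (∏ i, n₀ i s) * (∏ i, d₁ i s) * (∏ i, d₂ i s) * b

theorem cp_half {c : ℕ} (c0 : c ≠ 0) (s : ℂ) : (c : ℂ) ^ (s - 1 / 2) * (√c * xs s c) = 1 := by
  have h : (c : ℂ) ≠ 0 := Nat.cast_ne_zero.2 c0
  rw [Real.sqrt_eq_rpow, Complex.ofReal_cpow (Nat.cast_nonneg c), xs, Complex.ofReal_natCast,
    ← Complex.cpow_add _ _ h, ← Complex.cpow_add _ _ h]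
  convert Complex.cpow_zero _ using 2
  push_cast
  ring

theorem alg {μ y e e' W₀ W₁ W₂ c₀ c₁ s₀ s₁ x₀ x₁ N₀ N₁ N₂ D₀ D₁ D₂ : ℂ} (a : μ * y ^ 2 = 1)
    (k : (Complex.I * μ * e * (Complex.I * μ * e')) ^ 2 * (W₀ * c₀ * N₀ * D₁ * D₂) =
      D₀ * (W₁ * c₁ * N₁) * (W₂ * c₁ * N₂)) (a₀ : c₀ * (s₀ * x₀) = 1) (a₁ : c₁ * (s₁ * x₁) = 1)
    (a₂ : W₁ * W₂ = 1) (a₃ : W₀ * W₀ = 1) : (e * e') ^ 2 * (s₁ * s₁ * x₁ ^ 2 * N₀ * D₁ * D₂) =
      W₀ * y ^ 8 * (s₀ * x₀ * D₀ * N₁ * N₂) :=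
  calc _ = (Complex.I ^ 2) ^ 2 * (μ * y ^ 2) ^ 4 * (W₀ * W₀) * (c₀ * (s₀ * x₀)) *
        ((e * e') ^ 2 * (s₁ * s₁ * x₁ ^ 2 * N₀ * D₁ * D₂)) := by
        rw [Complex.I_sq, a, a₃, a₀]; ring
    _ = W₀ * y ^ 8 * s₀ * x₀ * (s₁ * x₁) ^ 2 * ((Complex.I * μ * e * (Complex.I * μ * e')) ^ 2 *
        (W₀ * c₀ * N₀ * D₁ * D₂)) := by ring
    _ = (W₁ * W₂) * (c₁ * (s₁ * x₁)) ^ 2 * (W₀ * y ^ 8 * (s₀ * x₀ * D₀ * N₁ * N₂)) := by
        rw [k]; ring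
    _ = _ := by rw [a₂, a₁]; ring

end Gl

open Gl in
/-- **row FEQ** -/
theorem feq0 (cfe : CFE) (gfe : GFE) (mul : MUL) (tw : TW) (dep : DEP) : FEQ := by
  intro m ε ε' G G' A B B' m1 h h' ι _ M _ _ f₀ f₁ ψ₀ ψ₁ hM h8 e
  have m0 : 0 < m := by omega
  choose W₀ W₀' w₀ w₀' c₀ using fun i => cfe (M i) (hM i).1 _ _ (hM i).2.1
  choose W₁ W₁' w₁ w₁' c₁ using fun i => cfe (M i) (hM i).1 _ _ (hM i).2.2.1
  have hρ : ∑ i, finrank ℚ (M i) / 2 = 4 := by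
    have : ∑ i, finrank ℚ (M i) = 2 * ∑ i, finrank ℚ (M i) / 2 := by
      rw [Finset.mul_sum]
      refine Finset.sum_congr rfl fun i _ => ?_
      have := (hM i).1
      rw [IsTotallyComplex.finrank]
      omega
    omega
  have g' := gfe m ε' G' _ B' m1 h'
  simp only [Complex.conj_conj] at g'
  refine ⟨∏ i, W₀ i, ?_, fun r X r1 hX => ?_⟩
  · rw [← Finset.prod_pow]
    exact Finset.prod_eq_one fun i _ => by rw [sq, ← w₀ i, w₀' i (hM i).2.2.2.1]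
  have r0 : 0 < r := by linarith
  have sm : ∀ {ε G A B}, Eg m ε G A B → Dr m r (eP m B) := fun {ε G A B} h =>
    of_ds ((tw m r m0 r0).2.2.2 B (((mul m ε G A B m1 h).2.2.2 r r1).of_nonneg_of_le
      (fun k => by positivity) fun k => by
        rcases k.eq_zero_or_pos with rfl | k0
        · simp [Real.zero_rpow (neg_ne_zero.2 r0.ne')]
        · refine mul_le_mul_of_nonneg_right (le_mul_of_one_le_right (norm_nonneg _) ?_)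
            (by positivity)
          exact_mod_cast Finset.card_pos.2 ⟨1, Nat.one_mem_divisors.2 k0.ne'⟩))
  have dm := fun {Φ Ψ} => dr_mul tw m0 r0 (Φ := Φ) (Ψ := Ψ)
  refine dr_eq tw m0 r0 (Φ := fun X => _) (Ψ := fun X => _)
    (dm (dr_pow tw m0 r0 (dm (sm h) (sm h')) 2) (dr_prod tw m0 r0 _ _ fun i _ =>
      dm (dm (dm (dm (dr_c tw m0 r0 _) (dr_pow tw m0 r0 (dr_x tw m0 r0 (hM i).2.2.2.2.2) 2))
        (dr_nu tw m0 r0 _)) (dr_de tw m0 r0 _)) (dr_de tw m0 r0 _)))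
    (dm (dm (dr_c tw m0 r0 _) (dr_pow tw m0 r0 (dr_x tw m0 r0 ⟨1, by simp⟩) 8))
      (dr_prod tw m0 r0 _ _ fun i _ => dm (dm (dm (dm (dr_c tw m0 r0 _)
        (dr_x tw m0 r0 (hM i).2.2.2.2.1)) (dr_de tw m0 r0 _)) (dr_nu tw m0 r0 _))
        (dr_nu tw m0 r0 _))) ?_ X hX
  have z : ∀ᶠ x : ℝ in atTop, ∀ i, Li (dp m (ψ₁ i)) x ≠ 0 ∧ Li (dp m (cj (ψ₁ i))) x ≠ 0 :=
    eventually_all.2 fun i => ((dep _ _ _ (hM i).2.2.1).2.2 m m0).2.and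
      ((dep _ _ _ (dep _ _ _ (hM i).2.2.1).1).2.2 m m0).2
  filter_upwards [z, eventually_gt_atTop 2] with x hx x2
  have k := quo hρ (gfe m ε G A B m1 h) g' (fun i => by
    have := (c₀ i m m0).1
    rwa [(hM i).2.2.2.1] at this) (fun i => (c₁ i m m0).1) (fun i => (c₁ i m m0).2) e
    (s := x) (by simpa using x2) hx
  have a : (m : ℂ) ^ (2 * (x : ℂ)) * xs x m ^ 2 = 1 := by
    rw [xs, ← Complex.cpow_nat_mul, ← Complex.cpow_add _ _ (Nat.cast_ne_zero.2 m0.ne')]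
    simp
  have a₀ := Finset.prod_congr (s₁ := Finset.univ) rfl fun i _ =>
    cp_half (dv_ne m0 (hM i).2.2.2.2.1) x
  have a₁ := Finset.prod_congr (s₁ := Finset.univ) rfl fun i _ =>
    cp_half (dv_ne m0 (hM i).2.2.2.2.2) x
  have a₂ := Finset.prod_congr (s₁ := Finset.univ) rfl fun i _ => w₁ i
  have a₃ := Finset.prod_congr (s₁ := Finset.univ) rfl fun i _ =>
    show W₀ i * W₀ i = 1 by rw [← w₀ i, w₀' i (hM i).2.2.2.1]
  have a₄ := Finset.prod_congr (s₁ := Finset.univ) rfl fun i _ =>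
    show ((√(cd (f₁ i)) : ℝ) : ℂ) * √(cd (f₁ i)) = cd (f₁ i) by
      rw [← Complex.ofReal_mul, Real.mul_self_sqrt (Nat.cast_nonneg _), Complex.ofReal_natCast]
  simp only [Finset.prod_mul_distrib, Finset.prod_const_one, Finset.prod_pow] at k a₀ a₁ a₂ a₃ a₄ ⊢
  rw [← a₄]
  exact alg a k a₀ a₁ a₂ a₃

end Vale.Agent.P014Y.Fe
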