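import Vale.Agent.P016Z.Pois.Rem

/-!
P014Y, block F: unfolding of theta series whose weights are functions of the ideal `(x) A⁻¹`.
-/

namespace Vale.Agent.P014Y.Fe

open NumberField NumberField.Units Complex Finset Module MeasureTheory
open Vale.Agent.P016Z Vale.Agent.P016Z.TH Vale.Agent.P016Z.Pois
open scoped Real nonZeroDivisors

variable {K ι : Type} [Field K] [NumberField K] [Fintype ι] (C : CM K ι)

/-- the principal fractional ideal -/
abbrev sp (x : K) : FractionalIdeal (𝓞 K)⁰ K := FractionalIdeal.spanSingleton (𝓞 K)⁰ x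

/-- the integral ideal `(x) A⁻¹` for `x ∈ A` -/
noncomputable def idl (A : FI K) (x : K) : Ideal (𝓞 K) :=
  Classical.epsilon fun I : Ideal (𝓞 K) => sp x = (I : FractionalIdeal (𝓞 K)⁰ K) * A

theorem idl_spec {A : FI K} {x : K} (hx : x ∈ (A : FractionalIdeal (𝓞 K)⁰ K)) :
    sp x = (idl A x : FractionalIdeal (𝓞 K)⁰ K) * A :=
  Classical.epsilon_spec (exists_span hx)

theorem idl_eq {A : FI K} {x : K} {I : Ideal (𝓞 K)}
    (h : sp x = (I : FractionalIdeal (𝓞 K)⁰ K) * A) : idl A x = I :=
  FractionalIdeal.coeIdeal_inj.1 ((Units.mul_left_inj A).1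
    ((idl_spec (mem_of_span h)).symm.trans h))

theorem idl_zero (A : FI K) : idl A 0 = ⊥ := idl_eq (by simp [sp])

theorem nm_idl {A : FI K} {x : K} (hx : x ∈ (A : FractionalIdeal (𝓞 K)⁰ K)) :
    C.nm x = Ideal.absNorm (idl A x) * nrm A := nm_of_span C (idl_spec hx)

omit [Fintype ι] in
open Classical in
/-- the generators in a fundamental domain: each ideal is counted `w` times -/
theorem comb' {F : Set (ι → ℝ)} (hF : FD C F) (y : ι → ℝ) (A : FI K) (H : Ideal (𝓞 K) → ℂ)
    (hH : Summable fun I : Cl A => ‖H I.1‖) :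
    HasSum (fun x : Nz A => if y - lg C x ∈ F then H (idl A x) else 0)
      (torsionOrder K * ∑' I : Cl A, H I.1) := by
  choose g hg0 hg1 hg2 using fun I : Cl A => exists_gen C hF y I
  let φ : torsion K × Cl A → Nz A := fun p => ⟨uK p.1 * g p.2,
    mem_of_span ((span_unit _ _).trans (hg1 p.2)), mul_ne_zero (uK_ne _) (hg0 _)⟩
  have hφ : Function.Injective φ := by
    rintro ⟨ζ, I⟩ ⟨ζ', I'⟩ h
    have h1 : uK ζ * g I = uK ζ' * g I' := congrArg Subtype.val h
    have h2 : I = I' := by
      have h3 := (span_unit ζ (g I)).trans (hg1 I)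
      rw [h1, span_unit, hg1] at h3
      exact Subtype.ext (FractionalIdeal.coeIdeal_inj.1 ((Units.mul_left_inj A).1 h3)).symm
    subst h2
    have h4 := mul_right_cancel₀ (hg0 I) h1
    have h5 : ζ = ζ' := Subtype.ext (Units.ext (RingOfIntegers.ext h4))
    rw [h5]
  have hlg : ∀ p, lg C (φ p : K) = lg C (g p.2) := fun p => by
    change lg C (uK p.1 * g p.2) = _
    rw [lg_mul C (uK_ne _) (hg0 _), lg_torsion C p.1.2, zero_add]
  have hr : ∀ x : Nz A, x ∉ Set.range φ →
      (if y - lg C x ∈ F then H (idl A x) else 0) = 0 := by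
    intro x hx
    refine if_neg fun hy => hx ?_
    obtain ⟨I, hI⟩ := exists_span x.2.1
    let I' : Cl A := ⟨I, x.1, x.2.2, hI⟩
    obtain ⟨u, hu⟩ := FractionalIdeal.spanSingleton_eq_spanSingleton.1 ((hg1 I').trans hI.symm)
    obtain ⟨⟨ζ, n⟩, hn, -⟩ := exist_unique_eq_mul_prod K u
    have hx1 : x.1 = uK ζ * (uK (un K n) * g I') := by
      rw [← hu, hn, ← mul_assoc, ← uK_mul]; rfl
    obtain ⟨m, -, hm⟩ := hF.2 (y - lg C (g I'))
    have h0 : n = 0 := by
      rw [hm 0 (by simpa [lam_eq] using hg2 I')]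
      refine hm n ?_
      rw [hx1, lg_mul C (uK_ne _) (mul_ne_zero (uK_ne _) (hg0 _)), lg_torsion C ζ.2, zero_add,
        lg_mul C (uK_ne _) (hg0 _)] at hy
      rwa [show y - lg C (g I') - lam C n = y - (lg C (uK (un K n)) + lg C (g I')) by
        unfold lam; abel]
    refine ⟨(ζ, I'), Subtype.ext ?_⟩
    rw [hx1, h0]
    simp [φ, un, uK]
  rw [← hφ.hasSum_iff hr]
  have h1 : (fun x : Nz A => if y - lg C x ∈ F then H (idl A x) else 0) ∘ φ =
      fun p : torsion K × Cl A => (1 : ℂ) * H p.2.1 := by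
    ext p
    simp only [Function.comp_apply, hlg, hg2, if_true, one_mul]
    rw [idl_eq ((span_unit _ _).trans (hg1 p.2))]
  have h2 : Summable fun _ : torsion K => ‖(1 : ℂ)‖ := .of_finite
  have h3 := tsum_mul_tsum_of_summable_norm h2 hH
  rw [tsum_const, nsmul_one] at h3
  rw [h1, torsionOrder, h3]
  exact (summable_mul_of_summable_norm h2 hH).hasSum

/-- the theta series without the zero term -/
noncomputable def tht (A : FI K) (Φ : Ideal (𝓞 K) → ℂ) (y : ι → ℝ) : ℂ :=
  ∑' x : Nz A, Φ (idl A x) * (gs (ex y) (C.em x) : ℂ)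

/-- the zeta function of a class -/
noncomputable def zt (A : FI K) (Φ : Ideal (𝓞 K) → ℂ) (s : ℂ) : ℂ :=
  ∑' I : Cl A, Φ I.1 * (Ideal.absNorm I.1 : ℂ) ^ (-s)

theorem summable_zt (A : FI K) {Φ : Ideal (𝓞 K) → ℂ} {B : ℝ} (hw : ∀ I : Cl A, ‖Φ I.1‖ ≤ B)
    {s : ℂ} (hs : 1 < s.re) :
    Summable fun I : Cl A => ‖Φ I.1 * (Ideal.absNorm I.1 : ℂ) ^ (-s)‖ := by
  refine Summable.of_nonneg_of_le (fun _ => norm_nonneg _) (fun I => ?_)
    ((summable_Cl A (w := fun _ => 1) (B := 1) (by simp) hs).mul_left B)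
  rw [norm_mul, one_mul]
  exact mul_le_mul_of_nonneg_right (hw I) (norm_nonneg _)

theorem measurable_tht (A : FI K) (Φ : Ideal (𝓞 K) → ℂ) : Measurable (tht C A Φ) := by
  refine Measurable.tsum fun x => ?_
  unfold gs ex
  fun_prop

/-- **Unfolding.** -/
theorem unfold_tht {F : Set (ι → ℝ)} (hF : FD C F) (A : FI K) {Φ : Ideal (𝓞 K) → ℂ} {B : ℝ}
    (hw : ∀ I : Cl A, ‖Φ I.1‖ ≤ B) {s : ℂ} (hs : 1 < s.re) :
    IntegrableOn (fun y => cexp (s * (∑ j, y j : ℝ)) * tht C A Φ y) F ∧
    ∫ y in F, cexp (s * (∑ j, y j : ℝ)) * tht C A Φ y =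
      torsionOrder K * ((1 / (2 * π)) ^ s * Gamma s) ^ Fintype.card ι *
        cexp (-s * Real.log (nrm A)) * zt A Φ s := by
  classical
  have hs0 : 0 < s.re := by linarith
  let H : Ideal (𝓞 K) → ℂ := fun I => Φ I * (Ideal.absNorm I : ℂ) ^ (-s)
  let c : ℂ := cexp (-s * Real.log (nrm A))
  let b : Nz A → (ι → ℝ) → ℂ := fun x y =>
    (if y - lg C x ∈ F then H (idl A x) else 0) * (c * GG s y)
  let a : Nz A → (ι → ℝ) → ℂ := fun x y => b x (y + lg C x)
  have hH : Summable fun I : Cl A => ‖H I.1‖ := summable_zt A hw hs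
  have ha : ∀ y, ∑' x, a x y =
      F.indicator (fun y => cexp (s * (∑ j, y j : ℝ)) * tht C A Φ y) y := by
    intro y
    simp only [a, b, add_sub_cancel_right]
    by_cases hy : y ∈ F
    · rw [Set.indicator_of_mem hy, tht, ← tsum_mul_left]
      refine tsum_congr fun x => ?_
      have h1 := C.nm_pos x.2.2
      have h2 := nm_idl C x.2.1
      have h3 : (Ideal.absNorm (idl A x) : ℝ) ≠ 0 := fun h => by
        rw [h2, h, zero_mul] at h1; exact h1.false
      rw [if_pos hy, mul_left_comm (cexp _), GG_shift C s y x.2.2, h2,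
        Real.log_mul h3 (nrm_pos A).ne']
      simp only [H, c]
      rw [cpow_def_of_ne_zero (by exact_mod_cast h3), ← natCast_log, ofReal_add, mul_add,
        Complex.exp_add, mul_comm (Real.log _ : ℂ)]
      ring
    · simp [hy]
  have hG : Measurable (GG (ι := ι) s) := by unfold GG; fun_prop
  have hbm : ∀ x, Measurable (b x) := fun x =>
    (Measurable.ite ((measurable_id.sub measurable_const) hF.1) measurable_const
      measurable_const).mul (hG.const_mul c)
  have ham : ∀ x, Measurable (a x) := fun x => (hbm x).comp (measurable_id.add measurable_const)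
  have hb1 : ∀ y, HasSum (fun x => b x y) (torsionOrder K * zt A Φ s * (c * GG s y)) :=
    fun y => (comb' C hF y A H hH).mul_right _
  have hb2 : ∑' x, ∫⁻ y, ‖b x y‖ₑ ≠ ⊤ := by
    rw [← lintegral_tsum fun x => (hbm x).enorm.aemeasurable]
    set Z : ℝ := ((torsionOrder K : ℂ) * ∑' I : Cl A, ((‖H I.1‖ : ℝ) : ℂ)).re
    have h1 : ∀ y, ∑' x, ‖b x y‖ₑ = ENNReal.ofReal Z * ‖c * GG s y‖ₑ := by
      intro y
      have h2 := hasSum_re (comb' C hF y A (fun n => ((‖H n‖ : ℝ) : ℂ)) (by simpa using hH))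
      have h3 : (fun x : Nz A => (if y - lg C x ∈ F then ((‖H (idl A x)‖ : ℝ) : ℂ) else 0).re) =
          fun x : Nz A => ‖if y - lg C x ∈ F then H (idl A x) else 0‖ := by
        ext x
        split_ifs <;> simp
      rw [h3] at h2
      simp only [b, enorm_mul]
      rw [ENNReal.tsum_mul_right, ← enorm_mul]
      congr 1
      simp_rw [← ofReal_norm]
      rw [← ENNReal.ofReal_tsum_of_nonneg (fun _ => norm_nonneg _) h2.summable, h2.tsum_eq]
    simp_rw [h1]
    rw [lintegral_const_mul' _ _ ENNReal.ofReal_ne_top]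
    exact ENNReal.mul_ne_top ENNReal.ofReal_ne_top ((integrable_GG hs0).const_mul c).2.ne
  have ha2 : ∑' x, ∫⁻ y, ‖a x y‖ₑ ≠ ⊤ := by
    have : ∀ x, ∫⁻ y, ‖a x y‖ₑ = ∫⁻ y, ‖b x y‖ₑ := fun x =>
      lintegral_add_right_eq_self (fun y => ‖b x y‖ₑ) _
    simpa only [this] using hb2
  constructor
  · rw [← integrable_indicator_iff hF.1, ← funext ha]
    refine ⟨(Measurable.tsum ham).aestronglyMeasurable, ?_⟩
    refine lt_of_le_of_lt (lintegral_mono fun y => enorm_tsum_le_tsum_enorm) ?_
    rw [lintegral_tsum fun x => (ham x).enorm.aemeasurable]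
    exact ha2.lt_top
  · rw [← integral_indicator hF.1, ← funext ha,
      integral_tsum (fun x => (ham x).aestronglyMeasurable) ha2]
    have : ∀ x, ∫ y, a x y = ∫ y, b x y := fun x => integral_add_right_eq_self (b x) _
    simp_rw [this]
    rw [← integral_tsum (fun x => (hbm x).aestronglyMeasurable) hb2]
    simp_rw [fun y => (hb1 y).tsum_eq]
    rw [integral_const_mul, integral_const_mul, integral_GG hs0]
    ring

/-- an entire Laplace type integral -/
theorem diff_all {Y : Type} [MeasurableSpace Y] {μ : Measure Y} {u : Y → ℝ} {φ : Y → ℂ}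
    (hu : Measurable u) (hφ : Measurable φ)
    (h : ∀ σ : ℝ, Integrable (fun y => Real.exp (σ * u y) * ‖φ y‖) μ) :
    Differentiable ℂ fun s : ℂ => ∫ y, cexp (s * u y) * φ y ∂μ := by
  intro s
  let c : ℝ := 1 - s.re
  have h1 := diff_param (μ := μ) (φ := fun y => cexp (-(c * u y : ℝ)) * φ y) hu (by fun_prop)
    fun σ _ => (h (σ - c)).congr (ae_of_all _ fun y => by
      simp only [norm_mul, norm_exp, neg_re, ofReal_re]
      rw [← mul_assoc, ← Real.exp_add]; congr 2; ring)
  have h2 : DifferentiableAt ℂ (fun s : ℂ => ∫ y, cexp (s * u y) *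
      (cexp (-(c * u y : ℝ)) * φ y) ∂μ) (s + c) :=
    h1.differentiableAt ((isOpen_lt continuous_const continuous_re).mem_nhds (by simp [c]))
  have h3 := h2.comp s (f := fun z : ℂ => z + c) (by fun_prop)
  refine h3.congr_of_eventuallyEq (Filter.Eventually.of_forall fun z => ?_)
  simp only [Function.comp_apply]
  refine integral_congr_ae (ae_of_all _ fun y => ?_)
  simp only
  rw [← mul_assoc, ← Complex.exp_add]
  congr 2
  push_cast
  ring

/-- functions of the trace on the standard domain -/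
theorem kappa : ∃ κ : ℝ, ∀ g : ℝ → ℂ, Integrable g →
    IntegrableOn (fun y : ι → ℝ => g (∑ j, y j)) (F0 C) ∧
    ∫ y in F0 C, g (∑ j, y j) = κ * ∫ x, g x := by
  classical
  let e : (ι → ℝ) ≃L[ℝ] (Option (Fin (rank K)) → ℝ) := (ub C).equivFunL
  have hc : (volume : Measure (ι → ℝ)).map e =
      Measure.addHaarScalarFactor ((volume : Measure (ι → ℝ)).map e) volume • volume :=
    Measure.isAddLeftInvariant_eq_smul _ _
  set c := Measure.addHaarScalarFactor ((volume : Measure (ι → ℝ)).map e) volume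
  refine ⟨c, fun g hg => ?_⟩
  let f : Option (Fin (rank K)) → ℝ → ℂ := fun o =>
    o.elim g fun _ => (Set.Ico (0 : ℝ) 1).indicator fun _ => 1
  have hf : ∀ o, Integrable (f o) := by
    rintro (_ | i)
    · exact hg
    · exact (integrable_indicator_iff measurableSet_Ico).2 (integrableOn_const (by simp))
  have hm : MeasurableSet (F0 C) := (fd_F0 C).1
  have h1 : (F0 C).indicator (fun y : ι → ℝ => g (∑ j, y j)) = fun y => ∏ o, f o (e y o) := by
    ext y
    have he : ∀ o, e y o = (ub C).repr y o := fun o => rfl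
    simp only [Fintype.prod_option, he, ub_none, f, Option.elim]
    by_cases h : y ∈ F0 C
    · rw [prod_eq_one fun i _ => Set.indicator_of_mem (h i) _, mul_one, Set.indicator_of_mem h]
    · rw [Set.indicator_of_notMem h]
      obtain ⟨i, hi⟩ := not_forall.1 h
      rw [prod_eq_zero (mem_univ i) (Set.indicator_of_notMem hi _), mul_zero]
  have h2 : Integrable (fun v : Option (Fin (rank K)) → ℝ => ∏ o, f o (v o))
      ((volume : Measure (ι → ℝ)).map e) := by
    rw [hc]
    exact (Integrable.fintype_prod hf).smul_measure_nnreal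
  have hme : MeasurableEmbedding e := e.toHomeomorph.measurableEmbedding
  constructor
  · rw [← integrable_indicator_iff hm, h1]
    exact (hme.integrable_map_iff).1 h2
  · rw [← integral_indicator hm, h1,
      ← hme.integral_map (fun v : Option (Fin (rank K)) → ℝ => ∏ o, f o (v o)), hc,
      integral_smul_nnreal_measure, integral_fintype_prod_volume_eq_prod, Fintype.prod_option]
    simp only [f, Option.elim]
    rw [integral_indicator measurableSet_Ico]
    simp [NNReal.smul_def]

end Vale.Agent.P014Y.Fe
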