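import Vale.Agent.P014Y.Fe.Tate0

/-!
P014Y, block F: the functional equation of the zeta sum of a periodic test function on a
fractional ideal of a totally complex field.
-/

namespace Vale.Agent.P014Y.Fe

open NumberField NumberField.Units Complex Finset Module MeasureTheory
open Vale.Agent.P016Z Vale.Agent.P016Z.TH Vale.Agent.P016Z.Pois
open scoped Real nonZeroDivisors

variable {K ι : Type} [Field K] [NumberField K] [Fintype ι] (C : CM K ι)

/-- the completed zeta sum -/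
noncomputable def Lam (ι : Type) [Fintype ι] (A : FI K) (Φ : Ideal (𝓞 K) → ℂ) (s : ℂ) : ℂ :=
  torsionOrder K * ((1 / (2 * π)) ^ s * Gamma s) ^ Fintype.card ι *
    cexp (-s * Real.log (nrm A)) * zt A Φ s

theorem unfold_rev (A : FI K) {Φ : Ideal (𝓞 K) → ℂ} {B : ℝ} (hw : ∀ I : Cl A, ‖Φ I.1‖ ≤ B)
    {s : ℂ} (hs : s.re < 0) :
    IntegrableOn (fun y => cexp (s * (∑ j, y j : ℝ)) *
      (cexp (-(∑ j, y j : ℝ)) * tht C A Φ (-y))) (F0 C) ∧
    ∫ y in F0 C, cexp (s * (∑ j, y j : ℝ)) * (cexp (-(∑ j, y j : ℝ)) * tht C A Φ (-y)) =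
      Lam ι A Φ (1 - s) := by
  have hF := (fd_F0 C).neg C 0
  obtain ⟨h1, h2⟩ := unfold_tht C hF A hw (s := 1 - s) (by simp; linarith)
  rw [← integrable_indicator_iff hF.1] at h1
  rw [← integral_indicator hF.1] at h2
  have h3 : (F0 C).indicator (fun y => cexp (s * (∑ j, y j : ℝ)) *
      (cexp (-(∑ j, y j : ℝ)) * tht C A Φ (-y))) =
      fun y => {y | 0 - y ∈ F0 C}.indicator
        (fun y => cexp ((1 - s) * (∑ j, y j : ℝ)) * tht C A Φ y) (0 - y) := by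
    ext y
    by_cases hy : y ∈ F0 C
    · rw [Set.indicator_of_mem hy, Set.indicator_of_mem (by simpa using hy), ← mul_assoc,
        ← Complex.exp_add, zero_sub]
      congr 2
      simp only [Pi.neg_apply, sum_neg_distrib]
      push_cast
      ring
    · rw [Set.indicator_of_notMem hy, Set.indicator_of_notMem (by simpa using hy)]
  rw [← integrable_indicator_iff (fd_F0 C).1, ← integral_indicator (fd_F0 C).1, h3,
    integral_sub_left_eq_self _ volume 0]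
  exact ⟨h1.comp_sub_left 0, h2⟩

theorem kappa2 : ∃ κ : ℝ, (∀ z : ℂ, 0 < z.re →
    IntegrableOn (fun y : ι → ℝ => cexp (z * (∑ j, y j : ℝ))) (Sm C 0) ∧
    ∫ y in Sm C 0, cexp (z * (∑ j, y j : ℝ)) = κ / z) ∧ ∀ z : ℂ, z.re < 0 →
    IntegrableOn (fun y : ι → ℝ => cexp (z * (∑ j, y j : ℝ))) (Sp C 0) ∧
    ∫ y in Sp C 0, cexp (z * (∑ j, y j : ℝ)) = -(κ / z) := by
  obtain ⟨κ, h⟩ := kappa C
  have key : ∀ (z : ℂ) (S : Set ℝ), MeasurableSet S →
      IntegrableOn (fun x : ℝ => cexp (z * x)) S →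
      IntegrableOn (fun y : ι → ℝ => cexp (z * (∑ j, y j : ℝ))) (F0 C ∩ {y | ∑ j, y j ∈ S}) ∧
      ∫ y in F0 C ∩ {y | ∑ j, y j ∈ S}, cexp (z * (∑ j, y j : ℝ)) =
        κ * ∫ x in S, cexp (z * x) := by
    intro z S hS hi
    obtain ⟨h1, h2⟩ := h _ ((integrable_indicator_iff hS).2 hi)
    have hm : MeasurableSet {y : ι → ℝ | ∑ j, y j ∈ S} :=
      (show Measurable fun y : ι → ℝ => ∑ j, y j by fun_prop) hS
    have h3 : (fun y : ι → ℝ => S.indicator (fun x : ℝ => cexp (z * x)) (∑ j, y j)) =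
        {y : ι → ℝ | ∑ j, y j ∈ S}.indicator fun y => cexp (z * (∑ j, y j : ℝ)) := by
      ext y
      by_cases hy : ∑ j, y j ∈ S
      · rw [Set.indicator_of_mem hy, Set.indicator_of_mem (by simpa using hy)]
      · rw [Set.indicator_of_notMem hy, Set.indicator_of_notMem (by simpa using hy)]
    rw [h3] at h1 h2
    rw [integral_indicator hS, setIntegral_indicator hm] at h2
    refine ⟨?_, h2⟩
    rw [IntegrableOn, integrable_indicator_iff hm, IntegrableOn,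
      Measure.restrict_restrict hm, Set.inter_comm] at h1
    exact h1
  refine ⟨κ, fun z hz => ?_, fun z hz => ?_⟩
  · have := key z _ measurableSet_Iic (integrableOn_exp_mul_complex_Iic hz 0)
    rw [integral_exp_mul_complex_Iic hz] at this
    refine ⟨this.1, this.2.trans ?_⟩
    simp [div_eq_mul_inv]
  · have := key z _ measurableSet_Ioi (integrableOn_exp_mul_complex_Ioi hz 0)
    rw [integral_exp_mul_complex_Ioi hz] at this
    have h4 : Sp C 0 = F0 C ∩ {y | ∑ j, y j ∈ Set.Ioi 0} := by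
      ext y; simp [Sp]
    rw [h4]
    refine ⟨this.1, this.2.trans ?_⟩
    simp [div_eq_mul_inv]

/-- the functional equation from a theta identity -/
theorem fe0 (A A' : FI K) {Φ Ψ : Ideal (𝓞 K) → ℂ} {B B' : ℝ} (hΦ : ∀ I : Cl A, ‖Φ I.1‖ ≤ B)
    (hΨ : ∀ J : Cl A', ‖Ψ J.1‖ ≤ B') (a b : ℂ)
    (hθ : ∀ y, tht C A Φ y + a = cexp (-(∑ j, y j : ℝ)) * (tht C A' Ψ (-y) + b)) :
    ∃ (E : ℂ → ℂ) (κ : ℝ), Differentiable ℂ E ∧
      (∀ s : ℂ, 1 < s.re → Lam ι A Φ s = E s + b * (κ / (s - 1)) - a * (κ / s)) ∧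
      ∀ s : ℂ, s.re < 0 → Lam ι A' Ψ (1 - s) = E s + b * (κ / (s - 1)) - a * (κ / s) := by
  obtain ⟨κ, hk1, hk2⟩ := kappa2 C
  let θ' : (ι → ℝ) → ℂ := fun y => cexp (-(∑ j, y j : ℝ)) * tht C A' Ψ (-y)
  have m1 := measurable_tht C A Φ
  have m2 : Measurable θ' := by
    have := measurable_tht C A' Ψ
    fun_prop
  have hn : ∀ (x : ℂ) (φ : (ι → ℝ) → ℂ) (y : ι → ℝ), ‖cexp (x * (∑ j, y j : ℝ)) * φ y‖ =
      Real.exp (x.re * ∑ j, y j) * ‖φ y‖ := by
    intro x φ y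
    rw [norm_mul, norm_exp, re_mul_ofReal]
  have i1 : ∀ σ : ℝ, Integrable (fun y => Real.exp (σ * ∑ j, y j) * ‖tht C A Φ y‖)
      (volume.restrict (Sp C 0)) := by
    intro σ
    have h1 := (unfold_tht C (fd_F0 C) A hΦ (s := (max σ 2 : ℝ))
      (by simp only [ofReal_re]; linarith [le_max_right σ 2])).1.mono_set
        (Set.sdiff_subset (t := {y | ∑ j, y j ≤ 0}))
    refine h1.norm.mono' (Measurable.aestronglyMeasurable (by fun_prop)) ?_
    filter_upwards [ae_restrict_mem (measurableSet_Sp C 0)] with y hy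
    have h3 : 0 ≤ ∑ j, y j := (not_le.1 hy.2).le
    rw [Real.norm_of_nonneg (by positivity), hn, ofReal_re]
    refine mul_le_mul_of_nonneg_right (Real.exp_le_exp.2 ?_) (norm_nonneg _)
    exact mul_le_mul_of_nonneg_right (le_max_left σ 2) h3
  have i2 : ∀ σ : ℝ, Integrable (fun y => Real.exp (σ * ∑ j, y j) * ‖θ' y‖)
      (volume.restrict (Sm C 0)) := by
    intro σ
    have h1 := (unfold_rev C A' hΨ (s := (min σ (-1) : ℝ))
      (by simp only [ofReal_re]; linarith [min_le_right σ (-1)])).1.mono_set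
        (Set.inter_subset_left (t := {y | ∑ j, y j ≤ 0}))
    refine h1.norm.mono' (Measurable.aestronglyMeasurable (by fun_prop)) ?_
    filter_upwards [ae_restrict_mem (measurableSet_Sm C 0)] with y hy
    have h3 : ∑ j, y j ≤ 0 := hy.2
    rw [Real.norm_of_nonneg (by positivity), hn _ θ', ofReal_re]
    refine mul_le_mul_of_nonneg_right (Real.exp_le_exp.2 ?_) (norm_nonneg _)
    exact mul_le_mul_of_nonpos_right (min_le_left σ (-1)) h3
  have j1 : ∀ s : ℂ, Integrable (fun y => cexp (s * (∑ j, y j : ℝ)) * tht C A Φ y)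
      (volume.restrict (Sp C 0)) := fun s =>
    (i1 s.re).mono' (Measurable.aestronglyMeasurable (by fun_prop))
      (ae_of_all _ fun y => (hn s _ y).le)
  have j2 : ∀ s : ℂ, Integrable (fun y => cexp (s * (∑ j, y j : ℝ)) * θ' y)
      (volume.restrict (Sm C 0)) := fun s =>
    (i2 s.re).mono' (Measurable.aestronglyMeasurable (by fun_prop))
      (ae_of_all _ fun y => (hn s _ y).le)
  have h8 : ∀ (s : ℂ) (y : ι → ℝ), cexp (s * (∑ j, y j : ℝ)) * tht C A Φ y =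
      cexp (s * (∑ j, y j : ℝ)) * θ' y + b * cexp ((s - 1) * (∑ j, y j : ℝ)) -
        a * cexp (s * (∑ j, y j : ℝ)) := by
    intro s y
    have h9 : cexp ((s - 1) * (∑ j, y j : ℝ)) =
        cexp (s * (∑ j, y j : ℝ)) * cexp (-(∑ j, y j : ℝ)) := by
      rw [← Complex.exp_add]; congr 1; ring
    simp only [θ', h9]
    linear_combination cexp (s * (∑ j, y j : ℝ)) * hθ y
  refine ⟨fun s => (∫ y in Sp C 0, cexp (s * (∑ j, y j : ℝ)) * tht C A Φ y) +
    ∫ y in Sm C 0, cexp (s * (∑ j, y j : ℝ)) * θ' y, κ,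
    (diff_all (by fun_prop) m1 i1).add (diff_all (by fun_prop) m2 i2), fun s hs => ?_,
    fun s hs => ?_⟩
  · obtain ⟨h1, h2⟩ := unfold_tht C (fd_F0 C) A hΦ hs
    obtain ⟨h3, h4⟩ := hk1 s (by linarith)
    obtain ⟨h5, h6⟩ := hk1 (s - 1) (by simp; linarith)
    rw [Lam, ← h2, ← integral_inter_add_sdiff (measurableSet_half 0) h1]
    change (∫ y in Sm C 0, _) + (∫ y in Sp C 0, _) = _
    have h7 : ∫ y in Sm C 0, cexp (s * (∑ j, y j : ℝ)) * tht C A Φ y =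
        (∫ y in Sm C 0, cexp (s * (∑ j, y j : ℝ)) * θ' y) + b * (κ / (s - 1)) - a * (κ / s) := by
      simp_rw [h8 s]
      have h9 := integral_sub ((j2 s).add (h5.const_mul b)) (h3.const_mul a)
      simp only [Pi.add_apply] at h9
      rw [h9, integral_add (j2 s) (h5.const_mul b), integral_const_mul, integral_const_mul, h4, h6]
    rw [h7]
    ring
  · obtain ⟨h1, h2⟩ := unfold_rev C A' hΨ hs
    obtain ⟨h3, h4⟩ := hk2 s hs
    obtain ⟨h5, h6⟩ := hk2 (s - 1) (by simp; linarith)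
    rw [← h2, ← integral_inter_add_sdiff (measurableSet_half 0) h1]
    change (∫ y in Sm C 0, cexp (s * (∑ j, y j : ℝ)) * θ' y) +
      (∫ y in Sp C 0, cexp (s * (∑ j, y j : ℝ)) * θ' y) = _
    have h7 : ∫ y in Sp C 0, cexp (s * (∑ j, y j : ℝ)) * θ' y =
        (∫ y in Sp C 0, cexp (s * (∑ j, y j : ℝ)) * tht C A Φ y) + a * -(κ / s) -
          b * -(κ / (s - 1)) := by
      simp_rw [fun y => show cexp (s * (∑ j, y j : ℝ)) * θ' y =
        cexp (s * (∑ j, y j : ℝ)) * tht C A Φ y + a * cexp (s * (∑ j, y j : ℝ)) -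
          b * cexp ((s - 1) * (∑ j, y j : ℝ)) by rw [h8 s y]; ring]
      have h9 := integral_sub ((j1 s).add (h3.const_mul a)) (h5.const_mul b)
      simp only [Pi.add_apply] at h9
      rw [h9, integral_add (j1 s) (h3.const_mul a), integral_const_mul, integral_const_mul, h4, h6]
    rw [h7]
    ring

/-- the additive character `e(Tr x)` -/
noncomputable def et (x : K) : ℂ := ee ((Algebra.trace ℚ K x : ℚ) : ℝ)

/-- a system of representatives of `A / B` -/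
def Rep (A B : FI K) (T : Finset K) : Prop :=
  (∀ t ∈ T, t ∈ (A : FractionalIdeal (𝓞 K)⁰ K)) ∧ ∀ x ∈ (A : FractionalIdeal (𝓞 K)⁰ K),
    ∃! t, t ∈ T ∧ x - t ∈ (B : FractionalIdeal (𝓞 K)⁰ K)

omit [NumberField K] in
theorem add_mem' {A : FractionalIdeal (𝓞 K)⁰ K} {x y : K} (hx : x ∈ A) (hy : y ∈ A) :
    x + y ∈ A := (A : Submodule (𝓞 K) K).add_mem hx hy

omit [NumberField K] in
theorem sub_mem' {A : FractionalIdeal (𝓞 K)⁰ K} {x y : K} (hx : x ∈ A) (hy : y ∈ A) :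
    x - y ∈ A := (A : Submodule (𝓞 K) K).sub_mem hx hy

/-- the decomposition of `A` into cosets of `B` -/
noncomputable def Rep.eqv {A B : FI K} {T : Finset K} (h : Rep A B T)
    (hBA : (B : FractionalIdeal (𝓞 K)⁰ K) ≤ A) : T × El B ≃ El A :=
  Equiv.ofBijective (fun p => ⟨p.1.1 + p.2.1, add_mem' (h.1 _ p.1.2) (hBA p.2.2)⟩) (by
    constructor
    · rintro ⟨t, b⟩ ⟨t', b'⟩ e
      have h1 : t.1 + b.1 = t'.1 + b'.1 := congrArg Subtype.val e
      have h2 : t.1 = t'.1 := (h.2 _ (add_mem' (h.1 _ t.2) (hBA b.2))).unique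
        ⟨t.2, by simp [b.2]⟩ ⟨t'.2, by rw [h1]; simp [b'.2]⟩
      rw [h2] at h1
      exact Prod.ext (Subtype.ext h2) (Subtype.ext (add_left_cancel h1))
    · rintro ⟨x, hx⟩
      obtain ⟨t, ⟨h1, h2⟩, -⟩ := h.2 x hx
      exact ⟨(⟨t, h1⟩, ⟨x - t, h2⟩), Subtype.ext (by simp)⟩)

theorem Rep.bound {A B : FI K} {T : Finset K} (h : Rep A B T) {φ : K → ℂ}
    (per : ∀ x ∈ (A : FractionalIdeal (𝓞 K)⁰ K), ∀ b ∈ (B : FractionalIdeal (𝓞 K)⁰ K),
      φ (x + b) = φ x) {x : K} (hx : x ∈ (A : FractionalIdeal (𝓞 K)⁰ K)) :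
    ‖φ x‖ ≤ ∑ t ∈ T, ‖φ t‖ := by
  obtain ⟨t, ⟨h1, h2⟩, -⟩ := h.2 x hx
  rw [← add_sub_cancel t x, per t (h.1 t h1) _ h2]
  exact single_le_sum (f := fun t => ‖φ t‖) (fun _ _ => norm_nonneg _) h1

theorem norm_et (x : K) : ‖et x‖ = 1 := norm_ee _

theorem et_zero : et (0 : K) = 1 := by simp [et, ee_zero]

theorem et_add (x y : K) : et (x + y) = et x * et y := by
  rw [et, map_add, Rat.cast_add, ee_add]; rfl

/-- the theta identity of a periodic function -/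
theorem theta_id {A B : FI K} {T : Finset K} (h : Rep A B T)
    (hBA : (B : FractionalIdeal (𝓞 K)⁰ K) ≤ A) {φ : K → ℂ}
    (per : ∀ x ∈ (A : FractionalIdeal (𝓞 K)⁰ K), ∀ b ∈ (B : FractionalIdeal (𝓞 K)⁰ K),
      φ (x + b) = φ x) (y : ι → ℝ) :
    (∑' x : Nz A, φ x * (gs (ex y) (C.em x) : ℂ)) + φ 0 = cexp (-(∑ j, y j : ℝ)) *
      ((∑' ξ : Nz (dl B), ((vol B : ℂ)⁻¹ * ∑ t ∈ T, φ t * et (t * ξ)) *
        (gs (ex (-y)) (C.em ξ) : ℂ)) + (vol B : ℂ)⁻¹ * ∑ t ∈ T, φ t) := by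
  have hs : Summable fun x : El A => φ x * (gs (ex y) (C.em x) : ℂ) := by
    refine Summable.of_norm_bounded
      ((summable_El C A (t := ex y) (fun _ => Real.exp_pos _) 0).mul_left (∑ t ∈ T, ‖φ t‖))
      fun x => ?_
    rw [norm_mul, norm_real, Real.norm_of_nonneg (gs_pos _ _).le, zero_add]
    exact mul_le_mul_of_nonneg_right (h.bound per x.2) (gs_pos _ _).le
  have h1 := tsum_El A (fun x => φ x * (gs (ex y) (C.em x) : ℂ)) hs
  rw [map_zero, gs_zero, ofReal_one, mul_one] at h1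
  have h0 := ((h.eqv hBA).summable_iff.2 hs).tsum_prod
  simp only [Function.comp_apply] at h0
  rw [add_comm, ← h1, ← (h.eqv hBA).tsum_eq, h0, tsum_fintype]
  have h2 : ∀ t : T, ∑' b : El B, φ (h.eqv hBA (t, b)) *
      (gs (ex y) (C.em (h.eqv hBA (t, b))) : ℂ) = φ t * (((vol B)⁻¹ * Real.exp (-∑ j, y j) : ℝ) *
        (1 + ∑' ξ : Nz (dl B), (gs (ex (-y)) (C.em ξ) : ℂ) * C.ch ξ (C.em t))) := by
    intro t
    rw [← poisson_split, ofReal_tsum, ← tsum_mul_left]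
    refine tsum_congr fun b => ?_
    change φ (t.1 + b.1) * (gs (ex y) (C.em (t.1 + b.1)) : ℂ) = _
    rw [per _ (h.1 _ t.2) _ b.2, map_add]
  simp_rw [h2]
  rw [sum_coe_sort T fun t => φ t * (((vol B)⁻¹ * Real.exp (-∑ j, y j) : ℝ) *
    (1 + ∑' ξ : Nz (dl B), (gs (ex (-y)) (C.em ξ) : ℂ) * C.ch ξ (C.em t)))]
  have h3 : ∀ t : K, Summable fun ξ : Nz (dl B) => φ t * et (t * ξ) *
      (gs (ex (-y)) (C.em ξ) : ℂ) := fun t => by
    refine Summable.of_norm_bounded ((summable_Nz C (dl B) (-y)).mul_left ‖φ t‖) fun ξ => ?_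
    rw [norm_mul, norm_mul, norm_et, mul_one, norm_real, Real.norm_of_nonneg (gs_pos _ _).le]
  simp_rw [mul_assoc ((vol B : ℂ)⁻¹), sum_mul]
  rw [tsum_mul_left, Summable.tsum_finsetSum fun t _ => h3 t, ← mul_add, ← sum_add_distrib,
    mul_sum, mul_sum]
  refine sum_congr rfl fun t _ => ?_
  have h4 : ∑' ξ : Nz (dl B), φ t * et (t * ξ) * (gs (ex (-y)) (C.em ξ) : ℂ) =
      φ t * ∑' ξ : Nz (dl B), (gs (ex (-y)) (C.em ξ) : ℂ) * C.ch ξ (C.em t) := by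
    rw [← tsum_mul_left]
    refine tsum_congr fun ξ => ?_
    rw [C.ch_em, et, mul_comm t]
    ring
  rw [h4]
  push_cast
  ring

/-- the archimedean factor `((2π)^(-s) Γ(s))^(n/2)` -/
noncomputable def gam (K : Type) [Field K] [NumberField K] (s : ℂ) : ℂ :=
  ((2 * π : ℂ) ^ (-s) * Gamma s) ^ (finrank ℚ K / 2)

include C in
theorem Lam_eq (A : FI K) (Φ : Ideal (𝓞 K) → ℂ) (s : ℂ) :
    Lam ι A Φ s = torsionOrder K * (gam K s * (nrm A : ℂ) ^ (-s) * zt A Φ s) := by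
  have h1 : finrank ℚ K / 2 = Fintype.card ι := by rw [← C.card_eq]; omega
  have h2 : ((1 / (2 * π)) : ℂ) ^ s = (2 * π : ℂ) ^ (-s) := by
    have h : (2 * π : ℂ) = ((2 * π : ℝ) : ℂ) := by push_cast; rfl
    rw [one_div, inv_cpow _ _ (by
      rw [h, arg_ofReal_of_nonneg Real.two_pi_pos.le]; exact Real.pi_ne_zero.symm), cpow_neg]
  have h3 : (nrm A : ℂ) ^ (-s) = cexp (-s * Real.log (nrm A)) := by
    rw [cpow_def_of_ne_zero (by exact_mod_cast (nrm_pos A).ne'), ← ofReal_log (nrm_pos A).le,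
      mul_comm]
  rw [Lam, gam, h1, h2, h3]
  ring

/-- **Functional equation** of the zeta sum of a periodic test function. -/
theorem tate [IsTotallyComplex K] {A B : FI K} (hBA : (B : FractionalIdeal (𝓞 K)⁰ K) ≤ A)
    {T : Finset K} (h : Rep A B T) (φ : K → ℂ)
    (per : ∀ x ∈ (A : FractionalIdeal (𝓞 K)⁰ K), ∀ b ∈ (B : FractionalIdeal (𝓞 K)⁰ K),
      φ (x + b) = φ x) (Φ Ψ : Ideal (𝓞 K) → ℂ)
    (hΦ : ∀ (x : K) (I : Ideal (𝓞 K)), x ≠ 0 →
      sp x = (I : FractionalIdeal (𝓞 K)⁰ K) * A → φ x = Φ I)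
    (hΨ : ∀ (y : K) (J : Ideal (𝓞 K)), y ≠ 0 →
      sp y = (J : FractionalIdeal (𝓞 K)⁰ K) * dl B → ∑ t ∈ T, φ t * et (t * y) = Ψ J) :
    ∃ F : ℂ → ℂ, Differentiable ℂ F ∧
      (∀ s : ℂ, 1 < s.re → F s = s * (s - 1) * (gam K s * (nrm A : ℂ) ^ (-s) * zt A Φ s)) ∧
      ∀ s : ℂ, s.re < 0 → F s = s * (s - 1) * (gam K (1 - s) * (vol B : ℂ)⁻¹ *
        (nrm (dl B) : ℂ) ^ (s - 1) * zt (dl B) Ψ (1 - s)) := by
  obtain ⟨C⟩ := exists_CM' K
  have b1 : ∀ I : Cl A, ‖Φ I.1‖ ≤ ∑ t ∈ T, ‖φ t‖ := by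
    rintro ⟨I, x, hx, e⟩
    rw [← hΦ x I hx e]
    exact h.bound per (mem_of_span e)
  have b2 : ∀ J : Cl (dl B), ‖(vol B : ℂ)⁻¹ * Ψ J.1‖ ≤ ‖(vol B : ℂ)⁻¹‖ * ∑ t ∈ T, ‖φ t‖ := by
    rintro ⟨J, y, hy, e⟩
    rw [norm_mul, ← hΨ y J hy e]
    refine mul_le_mul_of_nonneg_left ((norm_sum_le _ _).trans (le_of_eq ?_)) (norm_nonneg _)
    simp only [norm_mul, norm_et, mul_one]
  obtain ⟨E, κ, hE, h1, h2⟩ := fe0 C A (dl B) (Ψ := fun J => (vol B : ℂ)⁻¹ * Ψ J) b1 b2 (φ 0)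
    ((vol B : ℂ)⁻¹ * ∑ t ∈ T, φ t) fun y => by
      have := theta_id C h hBA per y
      unfold tht
      convert this using 4 with x ξ
      · rw [hΦ _ _ x.2.2 (idl_spec x.2.1)]
      · ext ξ
        rw [hΨ _ _ ξ.2.2 (idl_spec ξ.2.1)]
  have hw : (torsionOrder K : ℂ) ≠ 0 := by exact_mod_cast torsionOrder_ne_zero K
  refine ⟨fun s => (torsionOrder K : ℂ)⁻¹ * (s * (s - 1) * E s +
    ((vol B : ℂ)⁻¹ * ∑ t ∈ T, φ t) * κ * s - φ 0 * κ * (s - 1)), by fun_prop, fun s hs => ?_,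
    fun s hs => ?_⟩
  · have h3 := h1 s hs
    have h4 : s ≠ 0 := fun e => by simp [e] at hs; linarith
    have h5 : s - 1 ≠ 0 := fun e => by rw [sub_eq_zero.1 e] at hs; simp at hs
    rw [Lam_eq C] at h3
    rw [inv_mul_eq_iff_eq_mul₀ hw, mul_left_comm, h3]
    field_simp
  · have h3 := h2 s hs
    have h4 : s ≠ 0 := fun e => by simp [e] at hs
    have h5 : s - 1 ≠ 0 := fun e => by rw [sub_eq_zero.1 e] at hs; simp at hs; linarith
    have h6 : zt (dl B) (fun J => (vol B : ℂ)⁻¹ * Ψ J) (1 - s) =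
        (vol B : ℂ)⁻¹ * zt (dl B) Ψ (1 - s) := by
      simp only [zt, mul_assoc, tsum_mul_left]
    rw [Lam_eq C, h6, neg_sub] at h3
    rw [inv_mul_eq_iff_eq_mul₀ hw, mul_left_comm,
      show gam K (1 - s) * (vol B : ℂ)⁻¹ * (nrm (dl B) : ℂ) ^ (s - 1) * zt (dl B) Ψ (1 - s) =
        gam K (1 - s) * (nrm (dl B) : ℂ) ^ (s - 1) * ((vol B : ℂ)⁻¹ * zt (dl B) Ψ (1 - s)) by ring,
      h3]
    field_simp

end Vale.Agent.P014Y.Fe
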