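import Vale.Agent.P014Y.Fe.Tate1
import Mathlib.GroupTheory.FiniteAbelian.Basic

/-!
P014Y, block F: the functional equation of the Dirichlet series of a periodic function on ideals.
-/

namespace Vale.Agent.P014Y.Fe

open NumberField NumberField.Units Complex Finset Module MeasureTheory
open Vale.Agent.P016Z Vale.Agent.P016Z.TH Vale.Agent.P016Z.Pois
open scoped Real nonZeroDivisors

variable {K : Type} [Field K] [NumberField K]

theorem exists_rep {A B : FI K} (hBA : (B : FractionalIdeal (𝓞 K)⁰ K) ≤ A) : ∃ T, Rep A B T := by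
  classical
  have h0 : (B : FractionalIdeal (𝓞 K)⁰ K) * ((A⁻¹ : FI K) : FractionalIdeal (𝓞 K)⁰ K) ≤ 1 := by
    rw [← A.mul_inv]
    exact mul_le_mul_left hBA _
  obtain ⟨I, hI⟩ := FractionalIdeal.le_one_iff_exists_coeIdeal.1 h0
  have hB : (B : FractionalIdeal (𝓞 K)⁰ K) = I * A := by rw [hI, mul_assoc, A.inv_mul, mul_one]
  have hI0 : Ideal.absNorm I ≠ 0 := fun h => B.ne_zero (by
    rw [hB, Ideal.absNorm_eq_zero_iff.1 h]; simp)
  let N : Submodule ℤ (A : FractionalIdeal (𝓞 K)⁰ K) :=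
    { carrier := {x | x.1 ∈ (B : FractionalIdeal (𝓞 K)⁰ K)}
      add_mem' := fun a b => add_mem' a b
      zero_mem' := FractionalIdeal.zero_mem _
      smul_mem' := fun c x a =>
        ((B : FractionalIdeal (𝓞 K)⁰ K) : Submodule (𝓞 K) K).toAddSubgroup.zsmul_mem a c }
  have : Finite ((A : FractionalIdeal (𝓞 K)⁰ K) ⧸ N) := by
    refine Module.finite_of_fg_torsion _ fun q => ?_
    obtain ⟨x, rfl⟩ := N.mkQ_surjective q
    refine ⟨⟨(Ideal.absNorm I : ℤ), mem_nonZeroDivisors_of_ne_zero (by exact_mod_cast hI0)⟩, ?_⟩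
    change N.mkQ (((Ideal.absNorm I : ℕ) : ℤ) • x) = 0
    rw [Submodule.mkQ_apply, Submodule.Quotient.mk_eq_zero]
    change ((Ideal.absNorm I : ℕ) : ℤ) • x.1 ∈ (B : FractionalIdeal (𝓞 K)⁰ K)
    rw [hB, zsmul_eq_mul]
    have := FractionalIdeal.mul_mem_mul (FractionalIdeal.mem_coeIdeal_of_mem (P := K) (𝓞 K)⁰
      (Ideal.absNorm_mem I)) x.2
    simpa using this
  have := Fintype.ofFinite ((A : FractionalIdeal (𝓞 K)⁰ K) ⧸ N)
  choose g hg using N.mkQ_surjective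
  refine ⟨univ.image fun q => (g q).1, fun t ht => ?_, fun x hx => ⟨(g (N.mkQ ⟨x, hx⟩)).1,
    ⟨mem_image_of_mem _ (mem_univ _), ?_⟩, ?_⟩⟩
  · obtain ⟨q, -, rfl⟩ := mem_image.1 ht
    exact (g q).2
  · exact (Submodule.Quotient.eq N).1 (hg (N.mkQ ⟨x, hx⟩)).symm
  · rintro t ⟨ht, h⟩
    obtain ⟨q, -, rfl⟩ := mem_image.1 ht
    have : N.mkQ ⟨x, hx⟩ = q := ((Submodule.Quotient.eq N).2 h).trans (hg q)
    rw [this]

theorem Rep.sum_eq {A B : FI K} {T T' : Finset K} (h : Rep A B T) (h' : Rep A B T') {f : K → ℂ}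
    (per : ∀ x ∈ (A : FractionalIdeal (𝓞 K)⁰ K), ∀ b ∈ (B : FractionalIdeal (𝓞 K)⁰ K),
      f (x + b) = f x) : ∑ t ∈ T, f t = ∑ t ∈ T', f t := by
  have sym : ∀ {x y : K}, x - y ∈ (B : FractionalIdeal (𝓞 K)⁰ K) →
      y - x ∈ (B : FractionalIdeal (𝓞 K)⁰ K) := fun a => by
    simpa using sub_mem' (FractionalIdeal.zero_mem _) a
  choose i hi using fun t (ht : t ∈ T) => (h'.2 t (h.1 t ht)).exists
  refine sum_bij i (fun t ht => (hi t ht).1) (fun a ha b hb e => ?_) (fun b hb => ?_)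
    fun t ht => ?_
  · refine (h.2 _ (h'.1 _ (hi a ha).1)).unique ⟨ha, sym (hi a ha).2⟩ ⟨hb, ?_⟩
    rw [e]
    exact sym (hi b hb).2
  · obtain ⟨t, ⟨h1, h2⟩, -⟩ := h.2 b (h'.1 b hb)
    exact ⟨t, h1, (h'.2 t (h.1 t h1)).unique (hi t h1) ⟨hb, sym h2⟩⟩
  · rw [← per _ (h'.1 _ (hi t ht).1) _ (hi t ht).2, add_sub_cancel]

open Classical in
theorem Rep.scale {A B A' B' : FI K} {T : Finset K} (h : Rep A B T) {y : K} (hy : y ≠ 0)
    (hA : (A' : FractionalIdeal (𝓞 K)⁰ K) = sp y * A)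
    (hB : (B' : FractionalIdeal (𝓞 K)⁰ K) = sp y * B) : Rep A' B' (T.image (y * ·)) := by
  refine ⟨fun t ht => ?_, fun x hx => ?_⟩
  · obtain ⟨a, ha, rfl⟩ := mem_image.1 ht
    rw [hA]
    exact FractionalIdeal.mem_singleton_mul.2 ⟨a, h.1 a ha, rfl⟩
  · rw [hA] at hx
    obtain ⟨a, ha, rfl⟩ := FractionalIdeal.mem_singleton_mul.1 hx
    obtain ⟨t, ⟨h1, h2⟩, h3⟩ := h.2 a ha
    refine ⟨y * t, ⟨mem_image_of_mem _ h1, ?_⟩, ?_⟩
    · rw [hB]
      exact FractionalIdeal.mem_singleton_mul.2 ⟨a - t, h2, by ring⟩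
    · rintro _ ⟨ht, h4⟩
      obtain ⟨c, hc, rfl⟩ := mem_image.1 ht
      rw [hB] at h4
      obtain ⟨d, hd, e⟩ := FractionalIdeal.mem_singleton_mul.1 h4
      rw [← mul_sub] at e
      rw [h3 c ⟨hc, by rwa [mul_left_cancel₀ hy e]⟩]

open Classical in
/-- a nonzero ideal as a fractional ideal -/
noncomputable def fi (m : Ideal (𝓞 K)) : FI K :=
  if h : m = ⊥ then 1 else Units.mk0 (m : FractionalIdeal (𝓞 K)⁰ K)
    (FractionalIdeal.coeIdeal_ne_zero.2 h)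

theorem fi_coe {m : Ideal (𝓞 K)} (hm : m ≠ ⊥) : (fi m : FractionalIdeal (𝓞 K)⁰ K) = m := by
  rw [fi, dif_neg hm, Units.val_mk0]

theorem fi_le (m : Ideal (𝓞 K)) (A : FI K) :
    ((fi m * A : FI K) : FractionalIdeal (𝓞 K)⁰ K) ≤ A := by
  by_cases hm : m = ⊥
  · simp [fi, hm]
  · rw [Units.val_mul, fi_coe hm]
    conv_rhs => rw [← one_mul (A : FractionalIdeal (𝓞 K)⁰ K)]
    exact mul_le_mul_left FractionalIdeal.coeIdeal_le_one _

theorem nrm_mul (A B : FI K) : nrm (A * B) = nrm A * nrm B := by simp [nrm]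

theorem nrm_fi {m : Ideal (𝓞 K)} (hm : m ≠ ⊥) : nrm (fi m) = Ideal.absNorm m := by
  rw [nrm, fi_coe hm, FractionalIdeal.coeIdeal_absNorm]
  simp

/-- chosen representatives of `A / m A` -/
noncomputable def rp (m : Ideal (𝓞 K)) (A : FI K) : Finset K := (exists_rep (fi_le m A)).choose

theorem rp_rep (m : Ideal (𝓞 K)) (A : FI K) : Rep A (fi m * A) (rp m A) :=
  (exists_rep (fi_le m A)).choose_spec

theorem et_dl {A : FI K} {x y : K} (hx : x ∈ (A : FractionalIdeal (𝓞 K)⁰ K))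
    (hy : y ∈ (dl A : FractionalIdeal (𝓞 K)⁰ K)) : et (x * y) = 1 := by
  obtain ⟨n, hn⟩ := (FractionalIdeal.mem_dual A.ne_zero).1 hy x hx
  rw [Algebra.traceForm_apply, mul_comm] at hn
  rw [et, ← hn]
  simpa using ee_int n

/-- `a ↦ ξ((a) A⁻¹)` is periodic modulo `m A` for all `A` -/
def Per (m : Ideal (𝓞 K)) (ξ : Ideal (𝓞 K) → ℂ) : Prop :=
  ∀ (A : FI K), ∀ x ∈ (A : FractionalIdeal (𝓞 K)⁰ K),
    ∀ b ∈ ((fi m * A : FI K) : FractionalIdeal (𝓞 K)⁰ K), x ≠ 0 → x + b ≠ 0 →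
      ξ (idl A (x + b)) = ξ (idl A x)

theorem ex_ne (B : FI K) (x : K) : ∃ c ∈ (B : FractionalIdeal (𝓞 K)⁰ K), x + c ≠ 0 := by
  by_cases hx : x = 0
  · by_contra! h
    exact B.ne_zero (FractionalIdeal.eq_zero_iff.2 fun c hc => by simpa [hx] using h c hc)
  · exact ⟨0, FractionalIdeal.zero_mem _, by simpa using hx⟩

/-- the test function on the lattice `A` -/
noncomputable def ph (m : Ideal (𝓞 K)) (ξ : Ideal (𝓞 K) → ℂ) (A : FI K) (x : K) : ℂ :=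
  ξ (idl A (x + (ex_ne (fi m * A) x).choose))

theorem ph_eq {m : Ideal (𝓞 K)} {ξ : Ideal (𝓞 K) → ℂ} (hξ : Per m ξ) {A : FI K} {x b : K}
    (hx : x ∈ (A : FractionalIdeal (𝓞 K)⁰ K))
    (hb : b ∈ ((fi m * A : FI K) : FractionalIdeal (𝓞 K)⁰ K)) (h : x + b ≠ 0) :
    ph m ξ A x = ξ (idl A (x + b)) := by
  obtain ⟨h1, h2⟩ := (ex_ne (fi m * A) x).choose_spec
  have h3 := hξ A _ (add_mem' hx (fi_le m A hb)) _ (sub_mem' h1 hb) h (by simpa using h2)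
  rw [ph, ← h3]
  congr 2
  ring

theorem ph_ne {m : Ideal (𝓞 K)} {ξ : Ideal (𝓞 K) → ℂ} (hξ : Per m ξ) {A : FI K} {x : K}
    {I : Ideal (𝓞 K)} (hx : x ≠ 0) (e : sp x = (I : FractionalIdeal (𝓞 K)⁰ K) * A) :
    ph m ξ A x = ξ I := by
  rw [ph_eq hξ (mem_of_span e) (FractionalIdeal.zero_mem _) (by simpa using hx), add_zero, idl_eq e]

theorem ph_per {m : Ideal (𝓞 K)} {ξ : Ideal (𝓞 K) → ℂ} (hξ : Per m ξ) (A : FI K) :
    ∀ x ∈ (A : FractionalIdeal (𝓞 K)⁰ K),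
      ∀ b ∈ ((fi m * A : FI K) : FractionalIdeal (𝓞 K)⁰ K), ph m ξ A (x + b) = ph m ξ A x := by
  intro x hx b hb
  obtain ⟨c, hc, h⟩ := ex_ne (fi m * A) (x + b)
  rw [ph_eq hξ (add_mem' hx (fi_le m A hb)) hc h,
    ph_eq hξ hx (add_mem' hb hc) (by rwa [← add_assoc]), add_assoc]

/-- the finite Fourier transform of `ξ`, as a function on ideals -/
noncomputable def G (m : Ideal (𝓞 K)) (ξ : Ideal (𝓞 K) → ℂ) (J : Ideal (𝓞 K)) : ℂ :=
  ∑ t ∈ rp m (fi J * dl (fi m)), ph m ξ (fi J * dl (fi m)) t * et t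

theorem idl_scale {A A' : FI K} {y t : K} (hA : (A' : FractionalIdeal (𝓞 K)⁰ K) = sp y * A)
    (ht : t ∈ (A : FractionalIdeal (𝓞 K)⁰ K)) : idl A' (y * t) = idl A t := by
  refine idl_eq ?_
  rw [hA, mul_left_comm, ← idl_spec ht, FractionalIdeal.spanSingleton_mul_spanSingleton]

theorem ne_bot_of {A : FI K} {y : K} {J : Ideal (𝓞 K)} (hy : y ≠ 0)
    (e : sp y = (J : FractionalIdeal (𝓞 K)⁰ K) * A) : J ≠ ⊥ := Cl.ne_bot (A := A) ⟨J, y, hy, e⟩

theorem et_one {b : K} (hb : b ∈ ((dl 1 : FI K) : FractionalIdeal (𝓞 K)⁰ K)) : et b = 1 := by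
  simpa using et_dl (A := 1) (x := 1) (FractionalIdeal.one_mem_one _) hb

/-- the transform may be computed on any lattice -/
theorem G_eq {m : Ideal (𝓞 K)} {ξ : Ideal (𝓞 K) → ℂ} (hξ : Per m ξ) {A : FI K} {T : Finset K}
    (h : Rep A (fi m * A) T) {y : K} {J : Ideal (𝓞 K)} (hy : y ≠ 0)
    (e : sp y = (J : FractionalIdeal (𝓞 K)⁰ K) * dl (fi m * A)) :
    ∑ t ∈ T, ph m ξ A t * et (t * y) = G m ξ J := by
  classical
  have hJ := ne_bot_of hy e
  have h0 : fi J * dl (fi m) = fi J * dl (fi m * A) * A := by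
    rw [dl_eq, dl_eq (fi m * A), mul_inv]
    simp [mul_assoc]
  have hA : ((fi J * dl (fi m) : FI K) : FractionalIdeal (𝓞 K)⁰ K) = sp y * A := by
    rw [h0, e, Units.val_mul, Units.val_mul, fi_coe hJ]
  have hB : ((fi m * (fi J * dl (fi m)) : FI K) : FractionalIdeal (𝓞 K)⁰ K) =
      sp y * (fi m * A : FI K) := by
    rw [Units.val_mul, hA, Units.val_mul, mul_left_comm]
  have h1 := (h.scale hy hA hB).sum_eq (rp_rep m _)
    (f := fun t => ph m ξ (fi J * dl (fi m)) t * et t) fun x hx b hb => by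
      have h2 : fi m * (fi J * dl (fi m)) = fi J * dl 1 := by
        rw [dl_eq (fi m), mul_comm (dl 1), mul_left_comm, mul_inv_cancel_left]
      rw [ph_per hξ _ x hx b hb, et_add, et_one (b := b) (fi_le J _ (h2 ▸ hb)), mul_one]
  rw [G, ← h1, sum_image fun a _ b _ e => mul_left_cancel₀ hy e]
  refine sum_congr rfl fun t ht => ?_
  obtain ⟨c, hc, h3⟩ := ex_ne (fi m * A) t
  have h4 := h.1 t ht
  rw [ph_eq hξ h4 hc h3, ph_eq hξ (x := y * t) (b := y * c)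
    (hA ▸ FractionalIdeal.mem_singleton_mul.2 ⟨t, h4, rfl⟩)
    (hB ▸ FractionalIdeal.mem_singleton_mul.2 ⟨c, hc, rfl⟩)
    (by rw [← mul_add]; exact mul_ne_zero hy h3), ← mul_add,
    idl_scale hA (add_mem' h4 (fi_le m A hc)), mul_comm t]

theorem bdd_of (A : ClassGroup (𝓞 K) → FI K)
    (hA : Function.Surjective fun c => ClassGroup.mk K (A c)) {Φ : Ideal (𝓞 K) → ℂ}
    (h : ∀ c, ∃ B : ℝ, ∀ I : Cl (A c), ‖Φ I.1‖ ≤ B) : ∃ B : ℝ, ∀ I, I ≠ ⊥ → ‖Φ I‖ ≤ B := by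
  choose B hB using h
  refine ⟨∑ c, |B c|, fun I hI => ?_⟩
  obtain ⟨c, hc⟩ := hA (ClassGroup.mk0 ⟨I, mem_nonZeroDivisors_of_ne_zero hI⟩)⁻¹
  exact ((hB c ⟨I, (mem_Cl_iff (A c) ⟨I, mem_nonZeroDivisors_of_ne_zero hI⟩).2 hc⟩).trans
    (le_abs_self _)).trans (single_le_sum (f := fun c => |B c|) (fun _ _ => abs_nonneg _)
      (mem_univ c))

theorem summable_all {Φ : Ideal (𝓞 K) → ℂ} {B : ℝ} (hw : ∀ I, I ≠ ⊥ → ‖Φ I‖ ≤ B) {s : ℂ}
    (hs : 1 < s.re) : Summable fun I => ‖Φ I * (Ideal.absNorm I : ℂ) ^ (-s)‖ := by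
  have h0 : -s ≠ 0 := fun e => by rw [neg_eq_zero.1 e] at hs; simp at hs; linarith
  rw [← (Subtype.val_injective (p := fun I : Ideal (𝓞 K) => I ≠ ⊥)).summable_iff fun I hI => by
    have : I = ⊥ := by
      by_contra h
      exact hI ⟨⟨I, h⟩, rfl⟩
    simp [this, h0]]
  refine Summable.of_nonneg_of_le (fun _ => norm_nonneg _) (fun I => ?_)
    ((summable_NI' (K := K) (w := fun _ => 1) (B := 1) (by simp) hs).mul_left B)
  rw [Function.comp_apply, norm_mul, one_mul]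
  exact mul_le_mul_of_nonneg_right (hw I.1 I.2) (norm_nonneg _)

theorem sum_zt (A : ClassGroup (𝓞 K) → FI K)
    (hA : Function.Bijective fun c => ClassGroup.mk K (A c)) {Φ : Ideal (𝓞 K) → ℂ} {B : ℝ}
    (hw : ∀ I, I ≠ ⊥ → ‖Φ I‖ ≤ B) {s : ℂ} (hs : 1 < s.re) :
    ∑ c, zt (A c) Φ s = ∑' I, Φ I * (Ideal.absNorm I : ℂ) ^ (-s) := by
  classical
  have h0 : -s ≠ 0 := fun e => by rw [neg_eq_zero.1 e] at hs; simp at hs; linarith
  let t : Ideal (𝓞 K) → ℂ := fun I => Φ I * (Ideal.absNorm I : ℂ) ^ (-s)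
  let P : ClassGroup (𝓞 K) → Ideal (𝓞 K) → Prop := fun c I => ∃ x : K, x ≠ 0 ∧
    sp x = (I : FractionalIdeal (𝓞 K)⁰ K) * A c
  have ht : Summable fun I => ‖t I‖ := summable_all hw hs
  have h1 : ∀ c, zt (A c) Φ s = ∑' I, if P c I then t I else 0 := by
    intro c
    rw [← (Subtype.val_injective (p := P c)).tsum_eq, zt]
    · exact tsum_congr fun I => (if_pos I.2).symm
    · intro I hI
      exact ⟨⟨I, by_contra fun h => hI (if_neg h)⟩, rfl⟩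
  simp_rw [h1]
  rw [← Summable.tsum_finsetSum]
  · refine tsum_congr fun I => ?_
    by_cases hI : I = ⊥
    · simp [t, hI, h0]
    have h2 := fun c => mem_Cl_iff (A c) ⟨I, mem_nonZeroDivisors_of_ne_zero hI⟩
    obtain ⟨c, hc⟩ := hA.2 (ClassGroup.mk0 ⟨I, mem_nonZeroDivisors_of_ne_zero hI⟩)⁻¹
    rw [sum_eq_single c (fun c' _ h => if_neg fun h' => h (hA.1 (((h2 c').1 h').trans hc.symm)))
      (by simp), if_pos ((h2 c).2 hc)]
  · intro c _
    refine Summable.of_norm_bounded ht fun I => ?_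
    split_ifs <;> simp

theorem exists_cls (m : Ideal (𝓞 K)) : ∃ A : ClassGroup (𝓞 K) → FI K,
    (Function.Bijective fun c => ClassGroup.mk K (A c)) ∧
    Function.Bijective fun c => ClassGroup.mk K (dl (fi m * A c)) := by
  have hsur : ∀ c : ClassGroup (𝓞 K), ∃ A : FI K, ClassGroup.mk K A = c := fun c =>
    ClassGroup.induction (K := K) (fun A => ⟨A, rfl⟩) c
  choose A hA using hsur
  refine ⟨A, by simp only [hA]; exact Function.bijective_id, ?_⟩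
  have : (fun c => ClassGroup.mk K (dl (fi m * A c))) =
      fun c => ClassGroup.mk K (dl (fi m)) * c⁻¹ := by
    ext c
    rw [dl_eq, dl_eq (fi m), mul_inv, ← mul_assoc, map_mul _ _ (A c)⁻¹, map_inv, hA]
  rw [this]
  exact (Group.mulLeft_bijective _).comp inv_involutive.bijective

theorem Per.bdd {m : Ideal (𝓞 K)} {ξ : Ideal (𝓞 K) → ℂ} (hξ : Per m ξ) :
    ∃ B : ℝ, ∀ I, I ≠ ⊥ → ‖ξ I‖ ≤ B := by
  obtain ⟨A, h1, -⟩ := exists_cls m
  refine bdd_of A h1.2 fun c => ⟨∑ t ∈ rp m (A c), ‖ph m ξ (A c) t‖, ?_⟩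
  rintro ⟨I, x, hx, e⟩
  have := (rp_rep m (A c)).bound (ph_per hξ _) (mem_of_span e)
  rwa [ph_ne hξ hx e] at this

theorem Per.bdd_G {m : Ideal (𝓞 K)} {ξ : Ideal (𝓞 K) → ℂ} (hξ : Per m ξ) :
    ∃ B : ℝ, ∀ J, J ≠ ⊥ → ‖G m ξ J‖ ≤ B := by
  obtain ⟨A, -, h2⟩ := exists_cls m
  refine bdd_of (fun c => dl (fi m * A c)) h2.2
    fun c => ⟨∑ t ∈ rp m (A c), ‖ph m ξ (A c) t‖, ?_⟩
  rintro ⟨J, y, hy, e⟩
  rw [← G_eq hξ (rp_rep m (A c)) hy e]
  refine (norm_sum_le _ _).trans (le_of_eq ?_)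
  simp only [norm_mul, norm_et, mul_one]

theorem cpow_pos {x : ℝ} (hx : 0 < x) (s : ℂ) : (x : ℂ) ^ s = cexp (s * Real.log x) := by
  rw [cpow_def_of_ne_zero (by exact_mod_cast hx.ne'), ← ofReal_log hx.le, mul_comm]

/-- **Functional equation** of the Dirichlet series of a periodic function on ideals. -/
theorem tate2 [IsTotallyComplex K] {m : Ideal (𝓞 K)} (hm : m ≠ ⊥) {ξ : Ideal (𝓞 K) → ℂ}
    (hξ : Per m ξ) : ∃ F : ℂ → ℂ, Differentiable ℂ F ∧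
      (∀ s : ℂ, 1 < s.re →
        F s = s * (s - 1) * (gam K s * ∑' I, ξ I * (Ideal.absNorm I : ℂ) ^ (-s))) ∧
      ∀ s : ℂ, s.re < 0 → F s = s * (s - 1) * (gam K (1 - s) *
        ((|(discr K : ℝ)| : ℝ) : ℂ) ^ (1 / 2 - s) * (Ideal.absNorm m : ℂ) ^ (-s) *
          ∑' J, G m ξ J * (Ideal.absNorm J : ℂ) ^ (s - 1)) := by
  obtain ⟨A, h1, h2⟩ := exists_cls m
  obtain ⟨B, hB⟩ := hξ.bdd
  obtain ⟨B', hB'⟩ := hξ.bdd_G
  choose F hF e1 e2 using fun c => tate (fi_le m (A c)) (rp_rep m (A c))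
    (ph m ξ (A c)) (ph_per hξ _) ξ (G m ξ) (fun x I hx e => ph_ne hξ hx e)
    fun y J hy e => G_eq hξ (rp_rep m (A c)) hy e
  refine ⟨fun s => ∑ c, cexp (s * Real.log (nrm (A c))) * F c s, by fun_prop, fun s hs => ?_,
    fun s hs => ?_⟩
  · rw [← sum_zt A h1 hB hs, mul_sum, mul_sum]
    refine sum_congr rfl fun c _ => ?_
    have h3 : cexp (s * Real.log (nrm (A c))) * cexp (-s * Real.log (nrm (A c))) = 1 := by
      rw [← Complex.exp_add]; simp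
    rw [e1 c s hs, cpow_pos (nrm_pos _)]
    linear_combination s * (s - 1) * (gam K s * zt (A c) ξ s) * h3
  · have h4 := sum_zt (fun c => dl (fi m * A c)) h2 hB' (s := 1 - s) (by simp; linarith)
    rw [neg_sub] at h4
    rw [← h4, mul_sum, mul_sum]
    refine sum_congr rfl fun c _ => ?_
    have hD := abs_discr_pos (K := K)
    have hM : (0 : ℝ) < Ideal.absNorm m := by rw [← nrm_fi hm]; exact nrm_pos _
    have hA := nrm_pos (A c)
    have h5 : (vol (fi m * A c) : ℂ)⁻¹ = cexp (-(Real.log |(discr K : ℝ)| / 2 +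
        Real.log (Ideal.absNorm m) + Real.log (nrm (A c)) : ℝ)) := by
      rw [Complex.exp_neg, ← ofReal_exp, Real.exp_add, Real.exp_add, Real.exp_log hM,
        Real.exp_log hA, ← Real.log_sqrt hD.le, Real.exp_log (Real.sqrt_pos.2 hD), vol, nrm_mul,
        nrm_fi hm, mul_assoc]
    have h6 : Real.log (nrm (dl (fi m * A c))) = -(Real.log |(discr K : ℝ)| +
        Real.log (Ideal.absNorm m) + Real.log (nrm (A c))) := by
      rw [nrm_dl, Real.log_inv, nrm_mul, nrm_fi hm, Real.log_mul hD.ne' (by positivity),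
        Real.log_mul hM.ne' hA.ne', add_assoc]
    have h7 : cexp (s * Real.log (nrm (A c))) * ((vol (fi m * A c) : ℂ)⁻¹ *
        (nrm (dl (fi m * A c)) : ℂ) ^ (s - 1)) =
        ((|(discr K : ℝ)| : ℝ) : ℂ) ^ (1 / 2 - s) * (Ideal.absNorm m : ℂ) ^ (-s) := by
      rw [h5, cpow_pos (nrm_pos _), h6, cpow_pos hD, ← ofReal_natCast, cpow_pos hM,
        ← Complex.exp_add, ← Complex.exp_add, ← Complex.exp_add]
      congr 1
      push_cast
      ring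
    rw [e2 c s hs]
    linear_combination s * (s - 1) * (gam K (1 - s) * zt (dl (fi m * A c)) (G m ξ) (1 - s)) * h7

end Vale.Agent.P014Y.Fe
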